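import Mathlib.Geometry.Manifold.PartitionOfUnity
import Crest.Agent.N222.L.Cv3

/-!
# Row 228, necks (helper16): ambient extensions; `C²` convergence of all smooth functions in a box
-/

set_option autoImplicit false
set_option linter.unusedSectionVars false
open MeasureTheory Set Filter Topology Function Metric
open scoped ContDiff InnerProductSpace RealInnerProductSpace Manifold

noncomputable section

namespace Crest.Agent.N228.W

open Crest.Agent.N222

variable {d m : ℕ} {ι : Type} [Fintype ι] {X : Type} [TopologicalSpace X]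
  {V : Type} [NormedAddCommGroup V] [NormedSpace ℝ V]

/-- a chart is locally a smooth function of the position -/
theorem exists_inv {x : X → E ι} {e : OpenPartialHomeomorph X (E (Fin d))} (he : IsChart x e)
    {p : X} (hp : p ∈ e.source) : ∃ g : E ι → E (Fin d), (∀ᶠ y in 𝓝 (x p), ContDiffAt ℝ ∞ g y) ∧
      g (x p) = e p ∧ ∀ᶠ q in 𝓝 p, g (x q) = e q := by
  set w := e p with hw
  have hwt : w ∈ e.target := e.map_source hp
  set J := fderiv ℝ (x ∘ e.symm) w with hJ
  set Φ := ContinuousLinearMap.adjoint J ∘ x ∘ e.symm with hΦ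
  have hψ : ∀ z ∈ e.target, ContDiffAt ℝ ∞ Φ z := fun z hz =>
    (ContinuousLinearMap.adjoint J).contDiff.contDiffAt.comp z
      (he.sm.contDiffAt (e.open_target.mem_nhds hz))
  have hd : ∀ z ∈ e.target, ∀ u : (E (Fin d) →L[ℝ] E (Fin d))ˣ, u = fderiv ℝ Φ z →
      HasFDerivAt Φ (ContinuousLinearEquiv.ofUnit u : E (Fin d) →L[ℝ] E (Fin d)) z :=
    fun z hz u hu => by
      have h2 : (ContinuousLinearEquiv.ofUnit u : E (Fin d) →L[ℝ] E (Fin d)) = fderiv ℝ Φ z := by
        rw [← hu]; rfl
      rw [h2]; exact ((hψ z hz).differentiableAt (by simp)).hasFDerivAt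
  have h0 : IsUnit (fderiv ℝ Φ w) := by
    have h1 := (ContinuousLinearMap.adjoint J).hasFDerivAt.comp w
      ((he.sm.contDiffAt (e.open_target.mem_nhds hwt)).differentiableAt (by simp)).hasFDerivAt
    rw [h1.fderiv]; exact isUnit_gram (he.inj w hwt)
  have hn : (∞ : WithTop ℕ∞) ≠ 0 := by simp
  obtain ⟨u, hu⟩ := id h0
  set g := (hψ w hwt).toOpenPartialHomeomorph Φ (hd w hwt u hu) hn with hg
  have hs : w ∈ g.source := (hψ w hwt).mem_toOpenPartialHomeomorph_source (hd w hwt u hu) hn
  have hgw : g w = ContinuousLinearMap.adjoint J (x p) := by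
    change Φ w = _
    simp only [hΦ, comp_apply, hw, e.left_inv hp]
  have hev : ∀ᶠ z in 𝓝 w, z ∈ e.target ∧ IsUnit (fderiv ℝ Φ z) :=
    (e.open_target.eventually_mem hwt).and
      (((hψ w hwt).fderiv_right (m := 0) (by simp)).continuousAt.eventually
        (Units.isOpen.mem_nhds h0))
  have h3 : ∀ᶠ y in 𝓝 (g w), ContDiffAt ℝ ∞ g.symm y := by
    have c1 := g.continuousAt_symm (g.map_source hs)
    rw [ContinuousAt, g.left_inv hs] at c1
    filter_upwards [g.open_target.mem_nhds (g.map_source hs), c1.eventually hev]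
      with y y1 ⟨y2, u', hu'⟩
    exact g.contDiffAt_symm y1 (hd _ y2 u' hu') (hψ _ y2)
  have h4 : ∀ᶠ q in 𝓝 p, g.symm (ContinuousLinearMap.adjoint J (x q)) = e q := by
    filter_upwards [e.open_source.mem_nhds hp, (e.continuousAt hp).eventually
      (g.open_source.mem_nhds hs)] with q q1 q2
    have := g.left_inv q2
    change g.symm (Φ (e q)) = _ at this
    simpa only [hΦ, comp_apply, e.left_inv q1] using this
  refine ⟨fun y => g.symm (ContinuousLinearMap.adjoint J y), ?_, h4.self_of_nhds, h4⟩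
  rw [hgw] at h3
  filter_upwards [(ContinuousLinearMap.adjoint J).continuous.continuousAt.eventually h3] with y hy
  exact hy.comp y (ContinuousLinearMap.adjoint J).contDiff.contDiffAt

/-- smooth functions on a compact embedded manifold are restrictions of ambient functions -/
theorem exists_amb [T2Space X] [CompactSpace X] {M : Imm d ι X} (hM : Injective M.x) {f : X → V}
    (hf : M.Sm f) : ∃ φ : E ι → V, ContDiff ℝ ∞ φ ∧ ∀ p, φ (M.x p) = f p := by
  obtain ⟨φ, hφ⟩ := exists_contMDiffMap_forall_mem_convex_of_local (n := ⊤) 𝓘(ℝ, E ι)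
    (t := fun y => {v : V | ∀ p, M.x p = y → v = f p})
    (fun y a ha b hb s t _ _ hst p hp => by
      rw [ha p hp, hb p hp, ← add_smul, hst, one_smul]) fun y => by
    by_cases hy : y ∈ range M.x
    · obtain ⟨p, rfl⟩ := hy
      obtain ⟨g, g1, g2, g3⟩ := exists_inv (M.isChart p) (M.mem p)
      obtain ⟨r, hr, h1⟩ := (Imm.mem_nhds_iff_ball hM).1
        (g3.and ((M.ch p).open_source.eventually_mem (M.mem p)))
      have h2 : ∀ᶠ y in 𝓝 (M.x p), g y ∈ (M.ch p).target :=
        g1.self_of_nhds.continuousAt.eventually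
          (g2 ▸ (M.ch p).open_target.mem_nhds ((M.ch p).map_source (M.mem p)))
      refine ⟨_, (g1.and h2).and (ball_mem_nhds _ hr), fun y => f ((M.ch p).symm (g y)),
        contMDiffOn_iff_contDiffOn.2 fun y hy => (((hf p).contDiffAt
          ((M.ch p).open_target.mem_nhds hy.1.2)).comp y hy.1.1).contDiffWithinAt,
        fun y hy q hq => ?_⟩
      subst hq
      obtain ⟨h3, h4⟩ := h1 q (mem_ball_iff_norm.1 hy.2)
      simp only [h3, (M.ch p).left_inv h4]
    · exact ⟨_, (Imm.isClosedEmbedding_x hM).isClosed_range.isOpen_compl.mem_nhds hy, fun _ => 0,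
        contMDiffOn_const, fun y hy p hp => (hy ⟨p, hp⟩).elim⟩
  exact ⟨φ, φ.contMDiff.contDiff, fun p => hφ _ p rfl⟩

open Lm Lm.C3 in
/-- in a box every smooth function converges in `C²` -/
theorem box_c2 [DecidableEq ι] [T2Space X] [CompactSpace X] [MeasurableSpace X]
    [FiniteDimensional ℝ V] {M : Imm (m + 1) ι X}
    (hM : Injective M.x) {𝒰 : Ultrafilter ℕ} {u : ℕ → X → ℝ} {p : X} {t ρ : ℝ}
    {e : OpenPartialHomeomorph X (E (Fin (m + 1)))}
    {c : ℕ → OpenPartialHomeomorph X (E (Fin (m + 1)))} (B : Box M 𝒰 u p t e ρ c) {f : X → V}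
    (hf : M.Sm f) : C2 (fun j => f ∘ (c j).symm) (fun z => f (e.symm (rep z 0))) 𝒰 (ball 0 ρ) := by
  obtain ⟨φ, hφ, h⟩ := exists_amb hM hf
  have hC : C2 (fun j => M.x ∘ (c j).symm) (fun z => M.x (e.symm (rep z 0))) 𝒰 (ball 0 ρ) := by
    have : (fun z : E (Fin (m + 1)) => M.x (e.symm (rep z 0))) =
        fun z => M.x (e.symm (z - z 0 • ee 0)) := by
      funext z
      rw [rep, zero_sub, neg_smul, ← sub_eq_add_neg]
    rw [this]
    exact c2_iff.2 B.conv
  exact (hC.comp isOpen_ball (isCompact_closedBall 0 ρ) (isOpen_O e) ball_subset_closedBall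
    (ball_sub B.sub) (sm_base B.ch) (B.chj.mono fun j hj => hj.2.1 ▸ hj.1.sm) isOpen_univ
    (φ := fun s => φ s.2) (hφ.comp contDiff_snd).contDiffOn fun _ _ => mem_univ _).congr isOpen_ball
    (.of_forall fun j z _ => h _) fun _ _ => h _

end Crest.Agent.N228.W

end
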