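import Crest.Agent.N228.W.Defs
import Crest.Agent.N222.B.Box

/-!
# Row 228, necks (helper16): local graphs (copies of the proofs of row 222)
-/

set_option autoImplicit false
set_option linter.unusedSectionVars false
open MeasureTheory Set Filter Topology Function Metric
open scoped ContDiff InnerProductSpace RealInnerProductSpace

noncomputable section

namespace Crest.Agent.N228

open Crest.Agent.N222

namespace W

open Bx

variable {m : ℕ} {ι : Type} [Fintype ι] [DecidableEq ι] {X : Type} [TopologicalSpace X]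
  [T2Space X] [SecondCountableTopology X] [MeasurableSpace X] [BorelSpace X] [CompactSpace X]

theorem exists_cone' (hCyl : WCylStmt) (hMon2 : Mon2Stmt) (hSh : SheetStmt) {M : Imm (m + 1) ι X}
    {F h : X → ℝ} {Λ : ℝ} {𝒰 : Ultrafilter ℕ} {u : ℕ → X → ℝ} {τ s : ℕ → ℝ} (hM : Injective M.x)
    (hF : M.Sm F) (hu : WSeq M F h Λ 𝒰 u τ s) {p : X} (hp : p ∈ Sb 𝒰 u) {t : ℝ}
    (hr : M.Reg 𝒰 u p t) :
    ∃ (e : OpenPartialHomeomorph X (E (Fin (m + 1)))) (R δ C : ℝ), IsChart M.x e ∧ p ∈ e.source ∧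
      e p = 0 ∧ 0 < R ∧ 0 < δ ∧ closedBall 0 (2 * R) ⊆ e.target ∧
      ∀ᶠ j in (𝒰 : Filter ℕ), Cone (fun y => u j (e.symm y) - t) R δ ∧
        ∀ y ∈ ball (0 : E (Fin (m + 1))) (2 * R), |u j (e.symm y) - t| < δ →
          M.a2 (u j) (e.symm y) ≤ C := by
  obtain ⟨ρ0, C0, hρ0, hreg⟩ := hr
  obtain ⟨C, -, hC⟩ := hSh _ ι X M F hM hF Λ
  obtain ⟨ρ1, hρ1, hP⟩ := (Imm.mem_nhds_iff_ball hM).1
    (M.sm_PL.continuous.continuousAt (x := p) (ball_mem_nhds (M.PL p) (ε := 1 / 100) (by norm_num)))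
  set r := min ρ0 ρ1 / 2 with hrdef
  have hr0 : 0 < r := by positivity
  have hr1 : 2 * r ≤ ρ0 := by have := min_le_left ρ0 ρ1; linarith
  have hr2 : 2 * r ≤ ρ1 := by have := min_le_right ρ0 ρ1; linarith
  have hN : {q | ‖M.x q - M.x p‖ < r} ∈ 𝓝 p := (Imm.mem_nhds_iff_ball hM).2 ⟨r, hr0, fun _ h => h⟩
  have h1 := (hCyl m ι X M F h Λ 𝒰 u τ s hM hF hu).1 p hp t _ hN
  have hpos : 0 < 1 / 100 * (cPhi (m + 1) * Real.exp (-(C * r)) * r ^ (m + 1)) := by
    have := cPhi_pos (m + 1); positivity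
  have h2 := (hu.thin (|t| + r)).eventually (gt_mem_nhds hpos)
  have h3 : ∀ᶠ j in (𝒰 : Filter ℕ), ∃ q', ‖M.gx (u j) q' - up t (M.x p)‖ < 2 * r ∧
      M.vv (u j) q' < 1 / 100 := by
    filter_upwards [h1, h2] with j ⟨q, hq, hqt⟩ hj
    obtain ⟨q', hq', hv⟩ := exists_small_v hMon2 hM (hu.adm j).sm (hC _ (hu.adm j)) q hr0
      (ε := 1 / 100) (by norm_num) (by rw [hqt]; exact hj)
    refine ⟨q', ?_, hv⟩
    have h4 : ‖M.gx (u j) q - up t (M.x p)‖ < r := by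
      rw [Imm.gx, hqt, up_sub, sub_self]
      exact (norm_up_le _ _).trans_lt (by simpa using hq)
    have := norm_sub_le_norm_sub_add_norm_sub (M.gx (u j) q') (M.gx (u j) q) (up t (M.x p))
    linarith
  obtain ⟨q', hq'⟩ := h3.choice
  obtain ⟨n, -, hn⟩ := (isCompact_closedBall (0 : E (Option ι)) 1).ultrafilter_le_nhds
    (𝒰.map fun j => M.nuv (u j) (q' j)) (by
      rw [Ultrafilter.coe_map, le_principal_iff, mem_map]
      exact Eventually.of_forall fun j => by simp [Imm.norm_nuv (hu.adm j).sm])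
  have hn' : ∀ᶠ j in (𝒰 : Filter ℕ), ‖M.nuv (u j) (q' j) - n‖ < 1 / 100 := by
    simpa only [dist_eq_norm] using Metric.tendsto_nhds.1 hn (1 / 100) (by norm_num)
  -- all normals in the box are close to `n`
  have h5 : ∀ᶠ j in (𝒰 : Filter ℕ), ∀ q, ‖M.gx (u j) q - up t (M.x p)‖ < ρ0 →
      M.a2 (u j) q ≤ C0 ∧ M.vv (u j) q ≤ 2 / 100 ∧
        ‖M.vv (u j) q • M.grad (u j) q + down n‖ ≤ 2 / 100 := by
    filter_upwards [hreg, hq', hn'] with j hj hj1 hj2 q hq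
    obtain ⟨a1, a2⟩ := hj q (q' j) hq (hj1.1.trans_le hr1)
    refine ⟨a1, ?_, ?_⟩
    · have : |M.vv (u j) q - M.vv (u j) (q' j)| ≤ _ :=
        abs_none_le (M.nuv (u j) q - M.nuv (u j) (q' j))
      linarith [(abs_le.1 this).2, hj1.2]
    · have := norm_down_le (M.nuv (u j) q - n)
      rw [down_sub, down_nuv, ← neg_add', norm_neg] at this
      linarith [norm_sub_le_norm_sub_add_norm_sub (M.nuv (u j) q) (M.nuv (u j) (q' j)) n]
  have hX1 : ∀ j q, ‖M.vv (u j) q • M.grad (u j) q‖ ≤ 1 := fun j q => by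
    have := norm_down_le (M.nuv (u j) q)
    rwa [down_nuv, norm_neg, Imm.norm_nuv (hu.adm j).sm] at this
  have hX2 : ∀ j q, 1 - M.vv (u j) q ≤ ‖M.vv (u j) q • M.grad (u j) q‖ := fun j q => by
    have := norm_up_le (M.nuv (u j) q none) (down (M.nuv (u j) q))
    rw [up_down, down_nuv, norm_neg, Imm.norm_nuv (hu.adm j).sm] at this
    have h6 : |M.nuv (u j) q none| = M.vv (u j) q := abs_of_pos (M.vv_pos _ _)
    linarith
  set b := M.PL p (-down n) with hb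
  have hb1 : ‖b + down n‖ ≤ 5 / 100 ∧ 93 / 100 ≤ ‖b‖ ∧ ‖b‖ ≤ 103 / 100 := by
    obtain ⟨j, hj1, hj2⟩ := (hq'.and h5).exists
    obtain ⟨-, a1, a2⟩ := hj2 (q' j) (hj1.1.trans_le hr1)
    set Y := M.vv (u j) (q' j) • M.grad (u j) (q' j) with hY
    have hYt : M.PL (q' j) Y = Y := by rw [hY, map_smul, Imm.PL_grad]
    have a3 : ‖M.PL (q' j) - M.PL p‖ < 1 / 100 := by
      have := hP (q' j) ((Imm.norm_x_sub_le (u j) (q' j) (up t (M.x p))).trans_lt
        (hj1.1.trans_le hr2))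
      rwa [mem_preimage, mem_ball, dist_eq_norm] at this
    have a4 : ‖Y - M.PL p Y‖ ≤ 1 / 100 := by
      have := (M.PL (q' j) - M.PL p).le_opNorm Y
      rw [sub_apply, hYt] at this
      nlinarith [hX1 j (q' j), norm_nonneg Y, norm_nonneg (M.PL (q' j) - M.PL p)]
    have a5 : ‖M.PL p Y - b‖ ≤ 2 / 100 := by
      rw [hb, ← map_sub, sub_neg_eq_add]; exact (M.norm_PL_le p _).trans a2
    have a6 : ‖Y - b‖ ≤ 3 / 100 := by linarith [norm_sub_le_norm_sub_add_norm_sub Y (M.PL p Y) b]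
    have a7 := hX1 j (q' j)
    have a8 := hX2 j (q' j)
    have a9 := abs_le.1 ((abs_norm_sub_norm_le Y b).trans a6)
    refine ⟨?_, by linarith [a9.2], by linarith [a9.1]⟩
    have : b + down n = Y + down n - (Y - b) := by abel
    rw [this]; linarith [norm_sub_le (Y + down n) (Y - b)]
  obtain ⟨hb1, hb2, hb3⟩ := hb1
  have hb0 : 0 < ‖b‖ := by linarith
  have hξ : ‖‖b‖⁻¹ • b‖ = 1 := by rw [norm_smul, norm_inv, norm_norm, inv_mul_cancel₀ hb0.ne']
  have hξb : ‖b - ‖b‖⁻¹ • b‖ ≤ 7 / 100 := by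
    have : b - ‖b‖⁻¹ • b = (‖b‖ - 1) • ‖b‖⁻¹ • b := by
      rw [sub_smul, one_smul, smul_smul, mul_inv_cancel₀ hb0.ne', one_smul]
    rw [this, norm_smul, hξ, mul_one, Real.norm_eq_abs, abs_le]
    constructor <;> linarith
  obtain ⟨e, L, he, hpe, he0, hL, hD⟩ := exists_chart_dir M p hξ (by rw [map_smul, hb, M.PL_PL])
  have ht : e.target ∈ 𝓝 (0 : E (Fin (m + 1))) := he0 ▸ e.open_target.mem_nhds (e.map_source hpe)
  have hc := he.sm.contDiffAt ht
  have hs0 : e.symm 0 = p := by rw [← he0, e.left_inv hpe]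
  have hev : ∀ᶠ y in 𝓝 (0 : E (Fin (m + 1))), y ∈ e.target ∧ ‖M.x (e.symm y) - M.x p‖ < ρ0 / 2 ∧
      ‖fderiv ℝ (M.x ∘ e.symm) y - L.toContinuousLinearMap‖ < 1 / 5 := by
    have b1 := Metric.tendsto_nhds.1 hc.continuousAt (ρ0 / 2) (by positivity)
    have b2 := Metric.tendsto_nhds.1 (hc.fderiv_right (m := 0) (by simp)).continuousAt (1 / 5)
      (by norm_num)
    filter_upwards [ht, b1, b2] with y y1 y2 y3
    rw [dist_eq_norm] at y2 y3
    exact ⟨y1, by simpa [hs0] using y2, by rwa [hD] at y3⟩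
  obtain ⟨R, hR, hRs⟩ := nhds_basis_closedBall.eventually_iff.1 hev
  have hR2 : 2 * (R / 2) = R := by ring
  refine ⟨e, R / 2, ρ0 / 2, C0, he, hpe, he0, by positivity, by positivity,
    fun y hy => (hRs (hR2 ▸ hy)).1, ?_⟩
  filter_upwards [h5] with j hj
  have key : ∀ y ∈ ball (0 : E (Fin (m + 1))) (2 * (R / 2)), |u j (e.symm y) - t| < ρ0 / 2 →
      ‖M.gx (u j) (e.symm y) - up t (M.x p)‖ < ρ0 := fun y hy hyt => by
    have := (hRs (ball_subset_closedBall (hR2 ▸ hy))).2.1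
    rw [Imm.gx, up_sub]
    linarith [norm_up_le (u j (e.symm y) - t) (M.x (e.symm y) - M.x p)]
  refine ⟨fun y hy hyt η hη => ?_, fun y hy hyt => (hj _ (key y hy hyt)).1⟩
  obtain ⟨y1, -, y3⟩ := hRs (ball_subset_closedBall (hR2 ▸ hy))
  obtain ⟨-, a1, a2⟩ := hj _ (key y hy hyt)
  have a3 : ‖M.vv (u j) (e.symm y) • M.grad (u j) (e.symm y) - ‖b‖⁻¹ • b‖ ≤ 1 / 5 := by
    set Y := M.vv (u j) (e.symm y) • M.grad (u j) (e.symm y)
    have : Y - ‖b‖⁻¹ • b = Y + down n - (b + down n) + (b - ‖b‖⁻¹ • b) := by abel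
    rw [this]
    linarith [norm_add_le (Y + down n - (b + down n)) (b - ‖b‖⁻¹ • b),
      norm_sub_le (Y + down n) (b + down n)]
  have a4 := cone_ineq hL (hX1 j _) a3 y3.le hη
  have a5 : fderiv ℝ (fun y => u j (e.symm y) - t) y η =
      ⟪M.grad (u j) (e.symm y), fderiv ℝ (M.x ∘ e.symm) y η⟫ := by
    have := Imm.fderiv_chart (u j) he (e.map_target y1)
    rw [e.right_inv y1] at this
    rw [fderiv_sub_const, ← Imm.td_eq_inner]
    exact congrArg (fun T : _ →L[ℝ] ℝ => T η) this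
  rw [a5]
  rw [real_inner_smul_left] at a4
  have a6 := M.vv_pos (u j) (e.symm y)
  have a7 : 0 ≤ η 0 := (norm_nonneg _).trans hη
  by_contra hlt
  push Not at hlt
  nlinarith

variable {M : Imm (m + 1) ι X} {e : OpenPartialHomeomorph X (E (Fin (m + 1)))}

/-- estimates of all orders -/
theorem all_bounds' (hQ : QRegStmt) (he : IsChart M.x e) {F h : X → ℝ} (hF : M.Sm F) (hh : M.Sm h)
    {R ρ t C : ℝ} (hρ : 0 < ρ) (hR : 8 * ρ ≤ R) (hsub : closedBall 0 (2 * R) ⊆ e.target) (k : ℕ) :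
    ∃ B : ℝ, ∀ (u : X → ℝ) c w (l : ℝ × ℝ), GC M u e c w t ρ → (∀ z ∈ ball 0 ρ, |w z| ≤ R / 2) →
      ‖l‖ ≤ 1 → (∀ p, |u p| ≤ |t| + ρ → M.hF F u p = l.1 * u p + l.2 - h p) →
      (∀ z ∈ ball 0 ρ, M.a2 u (c.symm z) ≤ C) →
      ∀ z ∈ ball (0 : E (Fin (m + 1))) (ρ / 2), ‖iteratedFDeriv ℝ k w z‖ ≤ B := by
  let K : Set (Jet m) := closedBall 0 ρ ×ˢ closedBall 0 (R / 2) ×ˢ closedBall 0 2 ×ˢ closedBall 0 1
  have hK : IsCompact K := (isCompact_closedBall _ _).prod ((isCompact_closedBall _ _).prod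
    ((isCompact_closedBall _ _).prod (isCompact_closedBall _ _)))
  have hKW : K ⊆ jy ⁻¹' e.target := fun s hs => hsub (ball_subset_closedBall (norm_cons0_lt
    ((mem_closedBall_zero_iff.1 hs.2.1).trans (by linarith))
    ((norm_tail0_le _).trans (mem_closedBall_zero_iff.1 hs.1)) (by linarith)))
  have hφ : ∀ s : Jet m, jy s ∈ e.target → ContDiffAt ℝ ∞ (M.x ∘ e.symm) (jy s) := fun s hs =>
    he.sm.contDiffAt (e.open_target.mem_nhds hs)
  obtain ⟨B, hB⟩ := hK.exists_bound_of_continuousOn (f := jb (M.x ∘ e.symm) C) fun s hs =>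
    (cont_b (hφ s (hKW hs)) (he.inj _ (hKW hs)) C).continuousWithinAt
  obtain ⟨B', hB'⟩ := hQ (m + 1) k (ℝ × ℝ) (fun s => ginv (jJ (M.x ∘ e.symm) s))
    (jc (M.x ∘ e.symm) (F ∘ e.symm) (h ∘ e.symm) t) (jy ⁻¹' e.target) K ρ B
    (e.open_target.preimage contDiff_jy.continuous) hK hKW
    (fun i k s hs => (cd_a (hφ s hs) (he.inj _ hs) i k).contDiffWithinAt)
    (fun s hs => (cd_c (hφ s hs) (he.inj _ hs)
      ((hF.chart he).contDiffAt (e.open_target.mem_nhds hs))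
      ((hh.chart he).contDiffAt (e.open_target.mem_nhds hs)) t).contDiffWithinAt)
    (fun s hs => ginv_posDef (jJ_inj (he.inj _ (hKW hs)))) hρ
  refine ⟨B', fun u c w l H hw hl hE ha => hB' 0 w l H.sm fun z hz => ?_⟩
  have hm : (z, w z, gradient w z, l) ∈ K := ⟨ball_subset_closedBall hz,
    mem_closedBall_zero_iff.2 (hw z hz), mem_closedBall_zero_iff.2 (H.norm_P hz),
    mem_closedBall_zero_iff.2 hl⟩
  refine ⟨hm, (H.c2 hz l (ha z hz)).trans ((le_abs_self _).trans (hB _ hm)), ?_⟩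
  have h1 := H.eqn hz l (F := F) (h := fun p => l.1 * u p + l.2 - M.hF F u p) fun p => by ring
  have h2 : |u (c.symm z)| ≤ |t| + ρ := by
    rw [H.ht z hz]
    exact (abs_add_le _ _).trans (add_le_add le_rfl
      ((abs_zero_le z).trans (mem_ball_zero_iff.1 hz).le))
  have h3 : e.symm (jy (z, w z, gradient w z, l)) = c.symm z := (H.eq z hz).symm
  rw [h1]
  simp only [jc, comp_apply, h3, hE _ h2, sub_sub_cancel]

theorem box (hCyl : WCylStmt) (hMon2 : Mon2Stmt) (hSh : SheetStmt) (hQ : QRegStmt) : WBoxStmt := by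
  intro m ι _ _ X _ _ _ _ _ _ M F h Λ 𝒰 u τ s hM hF hu p hp t hr
  obtain ⟨e, R, δ, C, he, hpe, he0, hR, hδ, hsub, hev⟩ := exists_cone' hCyl hMon2 hSh hM hF hu hp hr
  obtain ⟨hC1, hC2⟩ := hCyl m ι X M F h Λ 𝒰 u τ s hM hF hu
  set ρ := min (R / 8) (δ / 2) with hρdef
  have hρ : 0 < ρ := by positivity
  have hρR : 8 * ρ ≤ R := by have := min_le_left (R / 8) (δ / 2); linarith
  have hρδ : ρ < δ := by have := min_le_right (R / 8) (δ / 2); linarith
  have hnb : ∀ r > 0, {q | q ∈ e.source ∧ ‖e q‖ < r} ∈ 𝓝 p := fun r hr =>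
    inter_mem (e.open_source.mem_nhds hpe)
      ((e.continuousAt hpe).norm.eventually (gt_mem_nhds (by simpa [he0] using hr)))
  have h1 : ∀ᶠ j in (𝒰 : Filter ℕ), ∃ cw : OpenPartialHomeomorph X (E (Fin (m + 1))) ×
      (E (Fin (m + 1)) → ℝ), GC M (u j) e cw.1 cw.2 t ρ ∧ (∀ z ∈ ball 0 ρ, |cw.2 z| ≤ R / 2) ∧
      ∀ q ∈ e.source, |e q 0| < R → ‖cons0 (u j q - t) (tail0 (e q))‖ < ρ →
        q ∈ cw.1.source ∧ cw.1 q = cons0 (u j q - t) (tail0 (e q)) ∧ e q 0 = cw.2 (cw.1 q) := by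
    filter_upwards [hev, hC1 p hp t _ (hnb ρ hρ)] with j hj ⟨q, hq, hqt⟩
    exact exists_gc (hu.adm j).sm he hρ hρR hρδ hsub hj.1 hq.1 hq.2.le hqt
  obtain ⟨cw, hcw⟩ := h1.choice
  have hball : ∀ {a : ℝ} {z : E (Fin (m + 1))}, |a| ≤ R / 2 → z ∈ ball 0 ρ →
      cons0 a (tail0 z) ∈ ball 0 (2 * R) := fun ha hz => norm_cons0_lt (ha.trans (by linarith))
    ((norm_tail0_le _).trans (mem_ball_zero_iff.1 hz).le) (by linarith)
  have hb2 : ball (0 : E (Fin (m + 1))) (ρ / 2) ⊆ ball 0 ρ := ball_subset_ball (by linarith)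
  have hbd : ∀ k : ℕ, ∃ B : ℝ, ∀ᶠ j in (𝒰 : Filter ℕ), ∀ z ∈ ball 0 (ρ / 2),
      ‖iteratedFDeriv ℝ k (cw j).2 z‖ ≤ B := fun k => by
    obtain ⟨B, hB⟩ := all_bounds' hQ he hF hu.smh (t := t) (C := C) hρ hρR hsub k
    have hl := (hu.tau.prodMk_nhds hu.sh).norm.eventually (gt_mem_nhds (a := 1) (by simp))
    refine ⟨B, ?_⟩
    filter_upwards [hcw, hev, hl, hu.eq (|t| + ρ)] with j ⟨H, hw, _⟩ hj hl hE
    refine hB (u j) _ _ (τ j, s j) H hw hl.le hE fun z hz => ?_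
    rw [H.eq z hz]
    refine hj.2 _ (hball (hw z hz) hz) ?_
    rw [← H.eq z hz, H.ht z hz, add_sub_cancel_left]
    exact (abs_zero_le z).trans_lt ((mem_ball_zero_iff.1 hz).trans hρδ)
  obtain ⟨v, hv, hlim⟩ := UL.sm_lim 𝒰 (fun j => (cw j).2) 0 (ρ / 2)
    (hcw.mono fun j hj => hj.1.sm.mono hb2) hbd
  have hvb : ∀ z ∈ ball (0 : E (Fin (m + 1))) (ρ / 2), |v z| ≤ R / 2 := fun z hz =>
    le_of_tendsto (hlim.tendsto_at hz).abs (hcw.mono fun j hj => hj.2.1 z (hb2 hz))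
  have hvt : ∀ z ∈ ball (0 : E (Fin (m + 1))) (ρ / 2), ps v z ∈ e.target := fun z hz =>
    hsub (ball_subset_closedBall (hball (hvb z hz) (hb2 hz)))
  have hconv : ∀ z ∈ ball (0 : E (Fin (m + 1))) (ρ / 2),
      Tendsto (fun j => (cw j).1.symm z) 𝒰 (𝓝 (e.symm (ps v z))) := fun z hz => by
    have h2 : Tendsto (fun j => ps (cw j).2 z) 𝒰 (𝓝 (ps v z)) :=
      (contDiff_cons0.continuous.tendsto (v z, tail0 z)).comp
        ((hlim.tendsto_at hz).prodMk_nhds tendsto_const_nhds)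
    exact ((e.continuousAt_symm (hvt z hz)).tendsto.comp h2).congr'
      (hcw.mono fun j hj => (hj.1.eq z (hb2 hz)).symm)
  have ha : ∀ z ∈ ball (0 : E (Fin (m + 1))) (ρ / 2), e.symm (ps v z) ∈ Sb 𝒰 u := fun z hz => by
    by_contra hn
    obtain ⟨N, hN, hNj⟩ := hC2 _ hn |t + z 0|
    obtain ⟨j, j1, j2, j3⟩ := (hNj.and (hcw.and (hconv z hz hN))).exists
    have := j1 _ j3
    rw [j2.1.ht z (hb2 hz)] at this
    exact lt_irrefl _ this
  have hb : ∀ q ∈ Sb 𝒰 u, q ∈ e.source → |e q 0| < R → ‖tail0 (e q)‖ < ρ / 2 →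
      e q 0 = v (cons0 0 (tail0 (e q))) := fun q hq hqe h2 h3 => by
    refine eq_of_forall_dist_le fun ε hε => ?_
    have c0 : ContinuousAt (fun q => e q 0) q :=
      (EuclideanSpace.proj (𝕜 := ℝ) (0 : Fin (m + 1))).continuous.continuousAt.comp
        (e.continuousAt hqe)
    have c1 : ContinuousAt (fun q => cons0 0 (tail0 (e q))) q :=
      ((contDiff_cons0_right 0).comp contDiff_tail0).continuous.continuousAt.comp
        (e.continuousAt hqe)
    have hmem : cons0 0 (tail0 (e q)) ∈ ball (0 : E (Fin (m + 1))) (ρ / 2) := by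
      rwa [mem_ball_zero_iff, norm_cons0_zero]
    have c2 : ContinuousAt (fun q => v (cons0 0 (tail0 (e q)))) q :=
      ContinuousAt.comp (f := fun q => cons0 0 (tail0 (e q)))
        (hv.continuousOn.continuousAt (isOpen_ball.mem_nhds hmem)) c1
    have hN : ∀ᶠ q' in 𝓝 q, q' ∈ e.source ∧ |e q' 0| < R ∧
        cons0 0 (tail0 (e q')) ∈ ball (0 : E (Fin (m + 1))) (ρ / 2) ∧
        dist (e q' 0) (e q 0) < ε / 3 ∧
        dist (v (cons0 0 (tail0 (e q')))) (v (cons0 0 (tail0 (e q)))) < ε / 3 := by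
      filter_upwards [e.open_source.mem_nhds hqe, c0.abs.eventually (gt_mem_nhds h2),
        c1 (isOpen_ball.mem_nhds hmem), Metric.tendsto_nhds.1 c0 (ε / 3) (by positivity),
        Metric.tendsto_nhds.1 c2 (ε / 3) (by positivity)] with q' a1 a2 a3 a4 a5
      exact ⟨a1, a2, a3, a4, a5⟩
    obtain ⟨j, ⟨q', ⟨a1, a2, a3, a4, a5⟩, a6⟩, j2, j3⟩ := ((hC1 q hq t _ hN).and (hcw.and
      (Metric.tendstoUniformlyOn_iff.1 hlim (ε / 3) (by positivity)))).exists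
    obtain ⟨-, b2, b3⟩ := j2.2.2 q' a1 a2 (by
      rw [a6, sub_self]; exact mem_ball_zero_iff.1 (hb2 a3))
    rw [b2, a6, sub_self] at b3
    have b4 := j3 _ a3
    rw [← b3, dist_comm] at b4
    rw [dist_comm] at a4
    linarith [dist_triangle4 (e q 0) (e q' 0) (v (cons0 0 (tail0 (e q'))))
      (v (cons0 0 (tail0 (e q))))]
  have hc : ∀ z ∈ ball (0 : E (Fin (m + 1))) (ρ / 2), v z = v (cons0 0 (tail0 z)) := fun z hz => by
    have := hb _ (ha z hz) (e.map_target (hvt z hz))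
    rw [e.right_inv (hvt z hz)] at this
    exact this ((hvb z hz).trans_lt (by linarith))
      ((norm_tail0_le z).trans_lt (mem_ball_zero_iff.1 hz))
  obtain ⟨g, g1, g2, g3, g4, g5, g6⟩ := exists_flatten (σ := fun y => v (cons0 0 y)) (ρ := ρ / 2)
    (hv.comp (contDiff_cons0_right 0).contDiffOn fun y hy => by
      rwa [mem_ball_zero_iff, norm_cons0_zero, ← mem_ball_zero_iff])
  have hO : IsOpen {y : E (Fin (m + 1)) | |y 0| < R} := isOpen_lt (by fun_prop) continuous_const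
  let e' := e.trans (g.restrOpen _ hO)
  have he' : IsChart M.x e' := he.trans _ (g5.mono inter_subset_left) (g6.mono inter_subset_left)
  have hs' : ∀ q, q ∈ e'.source ↔ q ∈ e.source ∧ ‖tail0 (e q)‖ < ρ / 2 ∧ |e q 0| < R := fun q => by
    change q ∈ e.source ∧ e q ∈ g.source ∧ _ ↔ _
    rw [g1]; rfl
  have hsl : ∀ q ∈ e'.source, q ∈ Sb 𝒰 u ↔ e' q 0 = 0 := fun q hq => by
    obtain ⟨a1, a2, a3⟩ := (hs' q).1 hq
    change _ ↔ g (e q) 0 = 0
    rw [g3, cons0_zero, sub_eq_zero]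
    refine ⟨fun hq => hb q hq a1 a3 a2, fun hq => ?_⟩
    have := ha (cons0 0 (tail0 (e q))) (by rwa [mem_ball_zero_iff, norm_cons0_zero])
    rwa [ps, ← hq, tail0_cons0, cons0_tail0, e.left_inv a1] at this
  have hpe' : p ∈ e'.source := (hs' p).2 ⟨hpe, by
    rw [he0]; exact (norm_tail0_le _).trans_lt (by simpa using hρ), by simpa [he0] using hR⟩
  have he0' : e' p = 0 := by
    have a1 : tail0 (e' p) = tail0 0 := by
      change tail0 (g (e p)) = _
      rw [g3, tail0_cons0, he0]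
    rw [← cons0_tail0 (e' p), (hsl p hpe').1 hp, a1]
    exact cons0_tail0 0
  obtain ⟨r0, hr0, hr1⟩ := nhds_basis_closedBall.mem_iff.1
    (he0' ▸ e'.open_target.mem_nhds (e'.map_source hpe'))
  set r := min r0 (ρ / 2) with hrdef
  have hr : 0 < r := by positivity
  have hrρ : r ≤ ρ / 2 := min_le_right _ _
  have hb3 : ball (0 : E (Fin (m + 1))) r ⊆ ball 0 (ρ / 2) := ball_subset_ball hrρ
  refine ⟨e', r, fun j => ((cw j).1.symm.restrOpen (ball 0 r) isOpen_ball).symm, he', hpe', he0',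
    hr, (closedBall_subset_closedBall (min_le_left _ _)).trans hr1, hsl, ?_,
    ⟨_, hnb (r / 4) (by positivity), r / 4, by positivity, ?_⟩, fun k _ => ?_⟩
  · filter_upwards [hcw] with j ⟨H, _, _⟩
    refine ⟨⟨H.hc.sm.mono inter_subset_left, fun z hz => H.hc.inj z hz.1⟩, ?_,
      fun z hz => H.ht z (hb2 (hb3 hz))⟩
    change (cw j).1.target ∩ ball 0 r = _
    rw [H.tg]; exact inter_eq_right.2 (hb3.trans hb2)
  · filter_upwards [hcw] with j ⟨_, _, H⟩ q hq hqt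
    have a1 : ‖cons0 (u j q - t) (tail0 (e q))‖ < r / 2 := by
      linarith [norm_cons0_le (u j q - t) (tail0 (e q)), norm_tail0_le (e q), hq.2]
    obtain ⟨a2, a3, -⟩ := H q hq.1 (by linarith [abs_zero_le (e q), hq.2]) (by linarith)
    have a4 : ‖(cw j).1 q‖ < r / 2 := a3 ▸ a1
    exact ⟨⟨a2, mem_ball_zero_iff.2 (by change ‖(cw j).1 q‖ < r; linarith)⟩, a4⟩
  · refine jets_lim 𝒰 (fun j => M.x ∘ (cw j).1.symm) _ 0 r
      (hcw.mono fun j hj => hj.1.hc.sm.mono (hj.1.tg ▸ hb3.trans hb2)) (fun k => ?_)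
      (fun z hz => ?_) k
    · obtain ⟨B, hB⟩ := comp_bound e.open_target (isCompact_closedBall _ _) hsub he.sm 𝒰
        (fun j => ps (cw j).2) 0 r (hcw.mono fun j hj => ⟨fun z hz =>
          (contDiffAt_ps (hj.1.wAt (hb2 (hb3 hz)))).contDiffWithinAt, fun z hz =>
          ball_subset_closedBall (hball (hj.2.1 z (hb2 (hb3 hz))) (hb2 (hb3 hz)))⟩) (fun k => by
          obtain ⟨B, hB⟩ := hbd k
          obtain ⟨C', hC'⟩ := ps_bound (m := m) (r := ρ) k
          refine ⟨B + C', ?_⟩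
          filter_upwards [hB, hcw] with j j1 j2 z hz
          exact hC' _ B j2.1.sm z (hb2 (hb3 hz)) (j1 z (hb3 hz))) k
      refine ⟨B, ?_⟩
      filter_upwards [hB, hcw] with j j1 j2 z hz
      rw [((j2.1.ev (hb2 (hb3 hz)) M.x).iteratedFDeriv ℝ k).self_of_nhds]
      exact j1 z hz
    · have a1 : e'.symm (z - z 0 • ee 0) = e.symm (ps v z) := by
        change e.symm (g.symm _) = _
        have a2 : tail0 (z - z 0 • ee 0) = tail0 z := by ext i; simp [ee]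
        have a3 : (z - z 0 • ee 0 : E (Fin (m + 1))) 0 = 0 := by simp [ee]
        rw [g4, a2, a3, zero_add, ← hc z (hb3 hz), ps]
      rw [a1]
      exact (M.continuous_x.tendsto _).comp (hconv z (hb3 hz))

end W

end Crest.Agent.N228

end
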