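import Crest.Agent.N228.W.Defs
import Crest.Agent.N222.L.Conv

/-!
# Row 228, necks (helper16): convergence to the cylinder
-/

set_option autoImplicit false
set_option linter.unusedSectionVars false
open MeasureTheory Set Filter Topology Function Metric
open scoped ContDiff InnerProductSpace RealInnerProductSpace

noncomputable section

namespace Crest.Agent.N228

open Crest.Agent.N222

namespace W

variable {m : ℕ} {ι : Type} [Fintype ι] [DecidableEq ι] {X : Type} [TopologicalSpace X]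
  [T2Space X] [SecondCountableTopology X] [MeasurableSpace X] [BorelSpace X] [CompactSpace X]

open Lm Lm.C3 in
/-- pointwise convergence of the jets in a box -/
theorem jet_box {M : Imm (m + 1) ι X} (hM : Injective M.x) {𝒰 : Ultrafilter ℕ} {u : ℕ → X → ℝ}
    (hu : ∀ j, M.Sm (u j)) {S U : Set X} {p : S} {t ρ : ℝ}
    {e : OpenPartialHomeomorph X (E (Fin (m + 1)))}
    {c : ℕ → OpenPartialHomeomorph X (E (Fin (m + 1)))} (B : Box M 𝒰 u p t e ρ c) (hU : IsOpen U)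
    (hS : ∀ q ∈ e.source ∩ U, q ∈ S ↔ e q 0 = 0) {N : Imm m ι S} (hN : ∀ q, N.x q = M.x q)
    (hp : p.1 ∈ U) {q : ℕ → X} (h1 : Tendsto q 𝒰 (𝓝 p))
    (h2 : Tendsto (fun j => u j (q j)) 𝒰 (𝓝 t)) :
    Tendsto (fun j => gJ M (u j) (q j)) 𝒰 (𝓝 (N.cylP p, N.cylB p)) := by
  have hKO := ball_sub B.sub
  have hC : C2 (fun j => M.x ∘ (c j).symm) (fun z => M.x (e.symm (rep z 0))) 𝒰 (ball 0 ρ) := by
    have : (fun z : E (Fin (m + 1)) => M.x (e.symm (rep z 0))) =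
        fun z => M.x (e.symm (z - z 0 • ee 0)) := by
      funext z
      rw [rep, zero_sub, neg_smul, ← sub_eq_add_neg]
    rw [this]
    exact c2_iff.2 B.conv
  have hC' : C2 (fun j => M.gx (u j) ∘ (c j).symm) (cyl M e t) 𝒰 (ball 0 ρ) := by
    refine (hC.comp isOpen_ball (isCompact_closedBall 0 ρ) (isOpen_O e) ball_subset_closedBall hKO
      (sm_base B.ch) (B.chj.mono fun j hj => hj.2.1 ▸ hj.1.sm) isOpen_univ
      (contDiff_lift t).contDiffOn fun _ _ => mem_univ _).congr isOpen_ball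
      (B.chj.mono fun j hj z hz => ?_) fun _ _ => rfl
    simp only [comp_apply, Imm.gx, hj.2.2 z hz]
  obtain ⟨N0, hN0, δ, hδ, hcov⟩ := B.cover
  have h3 : ∀ᶠ j in (𝒰 : Filter ℕ), q j ∈ (c j).source ∧ ‖c j (q j)‖ < ρ / 2 := by
    filter_upwards [hcov, h1.eventually hN0, Metric.tendsto_nhds.1 h2 δ hδ] with j a1 a2 a3
    exact a1 _ a2 a3
  obtain ⟨z0, hz0, hl⟩ := (isCompact_closedBall (0 : E (Fin (m + 1))) ρ).ultrafilter_le_nhds
    (𝒰.map fun j => c j (q j)) (by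
      rw [Ultrafilter.coe_map, le_principal_iff, mem_map]
      exact h3.mono fun j hj => mem_closedBall_zero_iff.2 (by linarith [hj.2, B.pos]))
  replace hl : Tendsto (fun j => c j (q j)) 𝒰 (𝓝 z0) := hl
  have hz : ∀ᶠ j in (𝒰 : Filter ℕ), c j (q j) ∈ ball (0 : E (Fin (m + 1))) ρ :=
    h3.mono fun j hj => mem_ball_zero_iff.2 (by linarith [hj.2, B.pos])
  have hO := hKO hz0
  have h4 : Tendsto (fun j => (c j).symm (c j (q j))) 𝒰 (𝓝 (e.symm (rep z0 0))) :=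
    (Imm.tendsto_iff_x hM).2 (seq_of_tuo hC.c0
      ((sm_base B.ch).contDiffAt ((isOpen_O e).mem_nhds hO)).continuousAt hz hl)
  have h5 : e.symm (rep z0 0) = p :=
    tendsto_nhds_unique (h4.congr' (h3.mono fun j hj => (c j).left_inv hj.1)) h1
  have hr : rep z0 0 = cons0 0 (tail0 z0) := C4.rep_eq _
  obtain ⟨e', he', -, ht', -, hsy⟩ := exists_sliceChart (B.ch.restr hU) hS p
  have heN : IsChart N.x e' := by rw [show N.x = fun q : S => M.x q from funext hN]; exact he'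
  have hy : tail0 z0 ∈ e'.target := by
    rw [ht']
    refine ⟨hr ▸ hO, ?_⟩
    change e.symm (cons0 0 (tail0 z0)) ∈ U
    rw [← hr, h5]; exact hp
  have hψ : cyl M e t =ᶠ[𝓝 z0] lift t fun w => N.x (e'.symm (tail0 w)) := by
    filter_upwards [contDiff_tail0.continuous.continuousAt.preimage_mem_nhds
      (e'.open_target.mem_nhds hy)] with w hw
    simp only [cyl, lift, hN, hsy _ hw, C4.rep_eq]
    rfl
  have h6 : e'.symm (tail0 z0) = p := Subtype.ext (by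
    rw [hsy _ hy]
    change e.symm (cons0 0 (tail0 z0)) = _
    rw [← hr, h5])
  have a3 := seq_of_tuo hC'.c1 (cont_d1 B.ch t hO).continuousAt hz hl
  have a4 := seq_of_tuo hC'.c2 (cont_d2 B.ch t hO).continuousAt hz hl
  have hJ := inj_cyl' B.ch t hO
  have a5 := ((continuousAt_PJ hJ).tendsto.comp a3).prodMk_nhds
    ((continuousAt_BJ hJ _).tendsto.comp (a3.prodMk_nhds a4))
  dsimp only at a5
  rw [PJ_cyl heN hy hψ, BJ_cyl heN hy hψ, h6] at a5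
  refine a5.congr' ?_
  filter_upwards [B.chj, h3] with j hj hq
  have hc : IsChart (M.graph (u j) (hu j)).x (c j) := Imm.isChart_graph (hu j) hj.1
  have b1 := fun b c => P_chart hc hq.1 b c
  have b2 := fun a b c => DP_chart hc hq.1 a b c
  rw [Imm.graph_pre (hu j), Imm.graph_x (hu j)] at b1 b2
  simp only [gJ, b1, b2, comp_apply]

open Cv Lm in
theorem conv_of (hC : WCylStmt) (hN : WNetStmt) (hB : WBoxStmt) (hA : WAllHtStmt) : WConvStmt := by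
  intro m ι _ _ X _ _ _ _ _ _ M F h Λ 𝒰 u τ s hinj hF hseq
  have hC := (hC m ι X M F h Λ 𝒰 u τ s hinj hF hseq).2
  have hU := (hN m ι X M F h Λ 𝒰 u τ s hinj hF hseq).1.isOpen_compl
  have hB := hB m ι X M F h Λ 𝒰 u τ s hinj hF hseq
  have hA := hA m ι X M F h Λ 𝒰 u τ s hinj hF hseq
  have hu : ∀ j, M.Sm (u j) := fun j => (hseq.adm j).sm
  have hsl : ∀ {p t e ρ c}, Box M 𝒰 u p t e ρ c → ∀ q ∈ e.source ∩ (M.Bad 𝒰 u)ᶜ,
      q ∈ M.Sig 𝒰 u ↔ e q 0 = 0 := fun B q hq =>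
    ⟨fun h => (B.slice q hq.1).1 h.1, fun h => ⟨(B.slice q hq.1).2 h, hq.2⟩⟩
  have hch : ∀ q ∈ M.Sig 𝒰 u, ∃ e : OpenPartialHomeomorph X (E (Fin (m + 1))), IsChart M.x e ∧
      q ∈ e.source ∧ ∀ p ∈ e.source, p ∈ M.Sig 𝒰 u ↔ e p 0 = 0 := fun q hq => by
    obtain ⟨e, ρ, c, B⟩ := hB q hq.1 0 (hA q hq 0)
    exact ⟨e.restrOpen _ hU, B.ch.restr hU, ⟨B.mem, hq.2⟩, hsl B⟩
  obtain ⟨N, hNx⟩ := M.exists_slice hch
  have hjet : ∀ (q : ℕ → X) (p : M.Sig 𝒰 u) (t : ℝ), Tendsto q 𝒰 (𝓝 p) →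
      Tendsto (fun j => u j (q j)) 𝒰 (𝓝 t) →
      Tendsto (fun j => gJ M (u j) (q j)) 𝒰 (𝓝 (N.cylP p, N.cylB p)) := fun q p t h1 h2 => by
    obtain ⟨e, ρ, c, B⟩ := hB p p.2.1 t (hA p p.2 t)
    exact jet_box hinj hu B hU (hsl B) hNx p.2.2 h1 h2
  refine ⟨N, hNx, hch, fun z hz => ?_, fun Ψ K T hΨ hK hd hs => ?_, hjet,
    fun O K a b hO hK hd hin => ?_⟩
  rotate_right
  · by_contra hn
    have h1 : ∀ᶠ j in (𝒰 : Filter ℕ), ∃ q, (q, u j q) ∈ K ×ˢ Icc a b ∧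
        (q, u j q, gJ M (u j) q) ∉ O := by
      filter_upwards [Ultrafilter.eventually_not.2 hn] with j hj
      push Not at hj
      obtain ⟨q, q1, q2, q3⟩ := hj
      exact ⟨q, ⟨q1, q2⟩, q3⟩
    obtain ⟨q, hq⟩ := h1.choice
    obtain ⟨⟨p, t⟩, hp, hl⟩ := (hK.prod isCompact_Icc).ultrafilter_le_nhds
      (𝒰.map fun j => (q j, u j (q j))) (by
        rw [Ultrafilter.coe_map, le_principal_iff, mem_map]
        exact hq.mono fun j hj => hj.1)
    have l1 : Tendsto q 𝒰 (𝓝 p) := (continuous_fst.tendsto _).comp hl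
    have l2 : Tendsto (fun j => u j (q j)) 𝒰 (𝓝 t) := (continuous_snd.tendsto _).comp hl
    have hS : p ∈ Sb 𝒰 u := by
      by_contra hS
      obtain ⟨N0, hN0, hev⟩ := hC p hS (|t| + 1)
      obtain ⟨j, j1, j2, j3⟩ := (hev.and ((l1.eventually hN0).and
        (l2.abs.eventually (gt_mem_nhds (lt_add_one |t|))))).exists
      exact (j1 _ j2).not_gt j3
    have hp' : p ∈ M.Sig 𝒰 u := ⟨hS, disjoint_left.1 hd hp.1⟩
    obtain ⟨j, j1, j2⟩ := (hq.and ((l1.prodMk_nhds (l2.prodMk_nhds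
      (hjet q ⟨p, hp'⟩ t l1 l2))).eventually (hO.mem_nhds (hin ⟨p, hp'⟩ hp.1 t hp.2)))).exists
    exact j1.2 j2
  · obtain ⟨z', h1, h2, h3⟩ := exists_ext hU (fun q hq => hq.2) hch hNx hz
    exact ⟨z', h1, subset_compl_iff_disjoint_right.1 h2, h3⟩
  have hK' : IsCompact (M.Sig 𝒰 u ∩ K) := by
    have : M.Sig 𝒰 u ∩ K = Sb 𝒰 u ∩ K := Set.ext fun q =>
      ⟨fun h => ⟨h.1.1, h.2⟩, fun h => ⟨⟨h.1, disjoint_left.1 hd h.2⟩, h.2⟩⟩
    rw [this]
    exact hK.inter_left (Cv.isClosed_Sb _ _)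
  refine glue (P := fun Ψ => Tendsto (fun j => ∫ q, gInt M Ψ (u j) q ∂M.gmu (u j)) 𝒰
    (𝓝 (∫ q : M.Sig 𝒰 u, (∫ t : ℝ, Ψ (q, t, N.cylP q, N.cylB q)) ∂N.mu))) hK (by simp [gInt])
    (fun Ψ Ψ' h1 h2 h1' h2' h3 h3' => ?_) (fun p hp t => ?_) hΨ hs
  · rw [integral_integral_add (integrable_cyl N hK' h1 h2) (integrable_cyl N hK' h1' h2')]
    exact (h3.add h3').congr fun j =>
      (integral_add (integrable_gInt h1 (hu j)) (integrable_gInt h1' (hu j))).symm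
  by_cases hp' : p ∈ Sb 𝒰 u
  · have hq : p ∈ M.Sig 𝒰 u := ⟨hp', disjoint_left.1 hd hp⟩
    obtain ⟨e, ρ, c, B⟩ := hB p hp' t (hA p hq t)
    obtain ⟨N0, hN0, δ, hδ, hcov⟩ := B.cover
    have hρ := half_pos B.pos
    have h1 : {q | ‖e q‖ < ρ / 2} ∈ 𝓝 p :=
      (e.continuousAt B.mem).norm.eventually_lt_const (by simpa [B.zero] using B.pos)
    refine ⟨(N0 ∩ ((e.source ∩ (M.Bad 𝒰 u)ᶜ) ∩ {q | ‖e q‖ < ρ / 2})) ×ˢ ball t (min δ (ρ / 2)),
      prod_mem_nhds (inter_mem hN0 (inter_mem ((e.open_source.inter hU).mem_nhds ⟨B.mem, hq.2⟩) h1))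
        (ball_mem_nhds t (lt_min hδ hρ)), fun Ψ hΨ _ hO => ?_⟩
    rw [← integral_cInt hΨ B.ch B.sub hU (hsl B) hNx ⟨p, hq⟩ fun s h =>
      ⟨(hO s h).1.2.1, (hO s h).1.2.2, (lt_min_iff.1 (hO s h).2).2⟩]
    exact tendsto_box hinj hu B hΨ (hcov.mono fun j hj q h =>
      (hj q (hO _ h).1.1 (lt_min_iff.1 (hO _ h).2).1).1)
  · obtain ⟨N0, hN0, hev⟩ := hC p hp' T
    refine ⟨(N0 ∩ (Sb 𝒰 u)ᶜ) ×ˢ univ, prod_mem_nhds (inter_mem hN0
      ((Cv.isClosed_Sb _ _).isOpen_compl.mem_nhds hp')) univ_mem, fun Ψ _ hs hO => ?_⟩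
    have e1 : ∀ (q : M.Sig 𝒰 u) (t : ℝ), Ψ (q, t, N.cylP q, N.cylB q) = 0 := fun q t => by
      by_contra h
      exact (hO _ h).1.2 q.2.1
    simp only [e1, integral_zero]
    refine tendsto_const_nhds.congr' (hev.mono fun j hj => ?_)
    have e2 : ∀ q, gInt M Ψ (u j) q = 0 := fun q => by
      by_contra h
      exact (hj q (hO _ h).1.1).not_ge (hs _ h).2
    simp only [e2, integral_zero]

end W

end Crest.Agent.N228

end
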