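import Crest.Agent.N228.W.Defs
import Crest.Agent.N222.L.Lim
import Crest.Agent.N222.L.Cv3

/-!
# Row 228, necks (helper16): the slice
-/

set_option autoImplicit false
set_option linter.unusedSectionVars false
open MeasureTheory Set Filter Topology Function Metric
open scoped ContDiff InnerProductSpace RealInnerProductSpace

noncomputable section

namespace Crest.Agent.N228

open Crest.Agent.N222

namespace W

open Lm

section Graph

variable {d : ℕ} {ι : Type} [Fintype ι] [DecidableEq ι] {X : Type}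
  [TopologicalSpace X] [T2Space X] [SecondCountableTopology X] [MeasurableSpace X] [BorelSpace X]
  {M : Imm d ι X} {F h u : X → ℝ}

theorem dir_u_nonneg (M : Imm d ι X) (u : X → ℝ) (p : X) : 0 ≤ M.pre.dir (M.Xf u) u p := by
  rw [Imm.dir_apply]
  refine Finset.sum_nonneg fun a _ => ?_
  rw [Imm.Xf_apply, mul_assoc]
  exact mul_nonneg (M.vv_pos u p).le (mul_self_nonneg _)

theorem abs_dir_eq (M : Imm d ι X) (u h : X → ℝ) (p : X) :
    |M.pre.dir (M.Xf u) h p| = √(M.pre.gam h h p - (M.gS u).gam h h p) := by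
  rw [Imm.gS_gam, sub_sub_cancel, Real.sqrt_mul_self_eq_abs]

/-- the derivative of the mean curvature from the local equation -/
theorem dir_hF_loc (hu : M.Sm u) (hh : M.Sm h) {τ σ : ℝ} {p : X}
    (he : M.hF F u =ᶠ[𝓝 p] fun q => τ * u q + σ - h q) : M.pre.dir (M.Xf u) (M.hF F u) p =
      τ * M.pre.dir (M.Xf u) u p - M.pre.dir (M.Xf u) h p := by
  have s1 := (Imm.sm_const τ).mul hu
  simp only [Imm.dir_apply, Finset.mul_sum, ← Finset.sum_sub_distrib]
  refine Finset.sum_congr rfl fun a _ => ?_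
  rw [Imm.D_congr he, Imm.D_sub ((s1.add (Imm.sm_const σ)).diffAt p) (hh.diffAt p),
    Imm.D_add (s1.diffAt p) ((Imm.sm_const σ).diffAt p), Imm.D_const,
    Imm.D_const_mul τ (hu.diffAt p)]
  ring

/-- stability of an arbitrary graph -/
theorem stab_gen (hP : PicStmt) [CompactSpace X] {G ζ : X → ℝ} (hF : M.Sm F) (hu : M.Sm u)
    (hζ : M.Sm ζ) (hG : Continuous G) (hle : ∀ p, ζ p ≠ 0 → G p ≤ M.pre.EF F p + M.hF F u p ^ 2 +
      M.a2 u p + 2 * M.pre.dir (M.Xf u) (M.hF F u) p) :
    0 ≤ ∫ p, (2 * (M.gS u).gam ζ ζ p + ((M.gS u).EF F p - G p) * ζ p ^ 2) * Real.exp (F p)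
      ∂M.gmu u := by
  have h1 := hP d (Option ι) X (M.graph u hu) F (M.vv u) ζ hF hu.vv (M.vv_pos u)
    ⟨hζ, HasCompactSupport.of_compactSpace _⟩
  have c1 := (Imm.Sm.gam (M := M.graph u hu) hζ hζ).continuous
  have c2 := (Imm.Sm.lapF (M := M.graph u hu) hF hu.vv).continuous
  have c3 := (Imm.Sm.EF (M := M.graph u hu) hF).continuous
  rw [Imm.graph_pre hu] at h1 c1 c2 c3
  rw [Imm.graph_mu hu] at h1
  have := Imm.isFiniteMeasure_gmu hu
  have ig : ∀ {f : X → ℝ}, Continuous f → Integrable f (M.gmu u) := fun hf =>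
    hf.integrable_of_hasCompactSupport (HasCompactSupport.of_compactSpace _)
  have cF := hF.exp.continuous
  have cζ := hζ.continuous
  have i1 := ig (c1.mul cF)
  have i2 := ig (((c2.neg.div hu.vv.continuous fun p => (M.vv_pos u p).ne').mul (cζ.pow 2)).mul cF)
  have h2 : 0 ≤ ∫ p, 2 * ((M.gS u).gam ζ ζ p * Real.exp (F p) -
      -(M.gS u).lapF F (M.vv u) p / M.vv u p * ζ p ^ 2 * Real.exp (F p)) ∂M.gmu u := by
    rw [integral_const_mul]
    exact mul_nonneg zero_le_two ((sub_nonneg.2 h1).trans_eq (integral_sub i1 i2).symm)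
  refine h2.trans (integral_mono ((i1.sub i2).const_mul 2) (ig (by fun_prop)) fun p => ?_)
  have hζ2 : G p * ζ p ^ 2 ≤ (M.pre.EF F p + M.hF F u p ^ 2 + M.a2 u p +
      2 * M.pre.dir (M.Xf u) (M.hF F u) p) * ζ p ^ 2 := by
    by_cases h0 : ζ p = 0
    · simp [h0]
    · exact mul_le_mul_of_nonneg_right (hle p h0) (sq_nonneg _)
  have key : 2 * ((M.gS u).gam ζ ζ p - (M.a2 u p + M.pre.RicF F (M.Xf u) p +
      M.pre.dir (M.Xf u) (M.hF F u) p) * ζ p ^ 2) ≤ 2 * (M.gS u).gam ζ ζ p +
      ((M.gS u).EF F p - G p) * ζ p ^ 2 := by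
    rw [Imm.gauss hu hF]
    linarith
  have := mul_le_mul_of_nonneg_right key (Real.exp_pos (F p)).le
  beta_reduce
  rw [Imm.jacobi hu hF, mul_div_cancel_right₀ _ (M.vv_pos u p).ne']
  linarith

end Graph

variable {m : ℕ} {ι : Type} [Fintype ι] [DecidableEq ι] {X : Type}
  [TopologicalSpace X] [T2Space X] [SecondCountableTopology X] [MeasurableSpace X] [BorelSpace X]
  [CompactSpace X] {M : Imm (m + 1) ι X} {F h : X → ℝ} {Λ : ℝ} {𝒰 : Ultrafilter ℕ}
  {u : ℕ → X → ℝ} {τ s : ℕ → ℝ} {N : Imm m ι (M.Sig 𝒰 u)}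

/-- the gain of the graphs at bounded heights -/
theorem ev_gain (hs : WSeq M F h Λ 𝒰 u τ s) {ε : ℝ} (hε : 0 < ε) (T : ℝ) :
    ∀ᶠ j in (𝒰 : Filter ℕ), ∀ p, |u j p| ≤ T →
      h p ^ 2 - 2 * √(M.pre.gam h h p - (M.gS (u j)).gam h h p) - ε ≤
        M.hF F (u j) p ^ 2 + 2 * M.pre.dir (M.Xf (u j)) (M.hF F (u j)) p := by
  obtain ⟨B, hB0, hB⟩ := Imm.exists_bound hs.smh.continuous
  have l : Tendsto (fun j => 2 * ((τ j * T + |s j|) * B)) 𝒰 (𝓝 0) := by
    simpa using (((hs.tau.mul_const T).add hs.sh.abs).mul_const B).const_mul 2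
  filter_upwards [l.eventually (gt_mem_nhds hε), hs.eq (T + 1)] with j hj he p hp
  have hu := (hs.adm j).sm
  have a1 : |τ j * u j p + s j| ≤ τ j * T + |s j| := by
    refine (abs_add_le _ _).trans (add_le_add ?_ le_rfl)
    rw [abs_mul, abs_of_pos (hs.pos j)]
    exact mul_le_mul_of_nonneg_left hp (hs.pos j).le
  have a2 : (τ j * u j p + s j) * h p ≤ (τ j * T + |s j|) * B := by
    refine (le_abs_self _).trans ?_
    rw [abs_mul]
    exact mul_le_mul a1 (hB p) (abs_nonneg _) ((abs_nonneg _).trans a1)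
  have a3 : M.hF F (u j) =ᶠ[𝓝 p] fun q => τ j * u j q + s j - h q := by
    filter_upwards [hu.continuous.abs.continuousAt.eventually
      (gt_mem_nhds (hp.trans_lt (lt_add_one T)))] with q hq using he q hq.le
  rw [dir_hF_loc hu hs.smh a3, ← abs_dir_eq, a3.self_of_nhds]
  nlinarith [sq_nonneg (τ j * u j p + s j), mul_nonneg (hs.pos j).le (dir_u_nonneg M (u j) p),
    le_abs_self (M.pre.dir (M.Xf (u j)) h p)]

/-- the stability inequality passes to the limit, up to `ε` -/
theorem lim_form (hP : PicStmt) (hc : Cv N) (hx : ∀ q, N.x q = M.x q) (hF : M.Sm F)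
    (hs : WSeq M F h Λ 𝒰 u τ s) {z : X → ℝ}
    (hz : M.Sm z) (hd : Disjoint (tsupport z) (M.Bad 𝒰 u)) (hN : N.Tst fun q => z q) {ε : ℝ}
    (hε : 0 < ε) : 0 ≤ (∫ q, (2 * N.pre.gam (fun q => z q) (fun q => z q) q +
      (N.pre.EF (fun q => F q) q - (M.pre.EF F q + h q ^ 2 -
        2 * √(M.pre.gam h h q - N.pre.gam (fun q => h q) (fun q => h q) q))) * z q ^ 2) *
        Real.exp (F q) ∂N.mu) + ε * (3 * ∫ q, z q ^ 2 * Real.exp (F q) ∂N.mu) := by
  obtain ⟨η, T, hη, hT, ha, hb⟩ := exists_eta hε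
  have loc := Loc.of_cont continuous_subtype_val hx
  have cη := hη.continuous
  have cη' := hη.continuous_deriv (by simp)
  have cz := hz.continuous
  have cF := hF.continuous
  have cE := hF.EF.continuous
  have ch := hs.smh.continuous
  have cg := (hs.smh.gam hs.smh).continuous
  have cG : Continuous fun s : Dom X ι => M.pre.EF F s.1 + h s.1 ^ 2 - 2 * √(M.pre.gam h h s.1 -
      gamJ s.2.2.1 (h s.1) 1 0 fun b => M.pre.D b h s.1) := by
    have := cont_gamJ (Z := Dom X ι) (P := fun s => s.2.2.1) (z := fun s => h s.1)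
      (η := fun _ => 1) (η1 := fun _ => 0) (z1 := fun s b => M.pre.D b h s.1) (by fun_prop)
      (by fun_prop) (by fun_prop) (by fun_prop)
      (continuous_pi fun b => (hs.smh.D b).continuous.comp continuous_fst)
    fun_prop
  have cG' : Continuous fun q : M.Sig 𝒰 u => M.pre.EF F q + h q ^ 2 -
      2 * √(M.pre.gam h h q - N.pre.gam (fun q => h q) (fun q => h q) q) := by
    have := ((hs.smh.res loc).gam (hs.smh.res loc)).continuous
    fun_prop
  have gg : ∀ j q, (M.gS (u j)).gam h h q = gamJ (fun b c => (M.gS (u j)).P b c q) (h q) 1 0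
      fun b => M.pre.D b h q := fun j q => by
    simpa using gam_graph (hs.adm j).sm hs.smh (η := fun _ => 1) contDiff_const q
  have gc : ∀ q : M.Sig 𝒰 u, gamJ (N.cylP q) (h q) 1 0 (fun b => M.pre.D b h q) =
      N.pre.gam (fun q => h q) (fun q => h q) q := fun q => by
    simpa using gam_cyl loc hs.smh 1 0 q
  have l1 := hc (fun s => (2 * gamJ s.2.2.1 (z s.1) (η s.2.1) (deriv η s.2.1)
      (fun b => M.pre.D b z s.1) + (efJ s.2.2.1 s.2.2.2 (fun b => M.pre.D b F s.1)
      (fun e b => M.pre.D e (M.pre.D b F) s.1) - (M.pre.EF F s.1 + h s.1 ^ 2 -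
      2 * √(M.pre.gam h h s.1 - gamJ s.2.2.1 (h s.1) 1 0 fun b => M.pre.D b h s.1)) + ε) *
      (z s.1 * η s.2.1) ^ 2) * Real.exp (F s.1)) (tsupport z) T ?_
    (isClosed_tsupport z).isCompact hd fun s hs => ⟨?_, ?_⟩
  rotate_left
  · refine ((continuous_const.mul (cont_gamJ (by fun_prop) (by fun_prop) (by fun_prop)
      (by fun_prop) (continuous_pi fun b => (hz.D b).continuous.comp continuous_fst))).add
      ((((cont_efJ (by fun_prop) (by fun_prop)
        (continuous_pi fun b => (hF.D b).continuous.comp continuous_fst)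
        (continuous_pi fun e => continuous_pi fun b =>
          ((hF.D b).D e).continuous.comp continuous_fst)).sub cG).add
        continuous_const).mul (by fun_prop))).mul (by fun_prop)
  · by_contra h0
    exact hs (by simp [gamJ, image_eq_zero_of_notMem_tsupport h0, Imm.D_eq_zero_of_notMem h0])
  · by_contra h0
    exact hs (by simp [gamJ, (hT _ (not_le.1 h0)).1, (hT _ (not_le.1 h0)).2])
  have l2 := ge_of_tendsto l1 (by
    filter_upwards [ev_gain hs hε T] with j hj
    have hu := (hs.adm j).sm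
    have cj := (Imm.Sm.gam (M := M.graph (u j) hu) hs.smh hs.smh).continuous
    rw [Imm.graph_pre hu] at cj
    have := stab_gen hP (G := fun p => M.pre.EF F p + h p ^ 2 -
      2 * √(M.pre.gam h h p - (M.gS (u j)).gam h h p) - ε) hF hu (hz.mul (hu.comp hη))
      (by fun_prop) fun p hp => by
        linarith [hj p (not_lt.1 fun h0 => hp (by simp [(hT _ h0).1])), M.a2_nonneg (u j) p]
    simpa only [gam_graph hu hz hη, ef_graph hu hF, gg,
      show ∀ a b : ℝ, a - (b - ε) = a - b + ε from fun a b => by ring] using this)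
  have i1 := intg_eta cη fun t ht => (hT t ht).1
  have i2 := intg_eta cη' fun t ht => (hT t ht).2
  have cz' := hN.sm.continuous
  have cF' := (hF.res loc).continuous
  have j1 : Integrable (fun q : M.Sig 𝒰 u => z q ^ 2 * Real.exp (F q)) N.mu :=
    Imm.integrable_of_support hN.cs (by fun_prop) fun q hq => by
      rw [image_eq_zero_of_notMem_tsupport (f := fun q : M.Sig 𝒰 u => z q) hq]; simp
  have j2 : Integrable (fun q : M.Sig 𝒰 u => (2 * N.pre.gam (fun q => z q) (fun q => z q) q +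
      (N.pre.EF (fun q => F q) q - (M.pre.EF F q + h q ^ 2 -
        2 * √(M.pre.gam h h q - N.pre.gam (fun q => h q) (fun q => h q) q))) * z q ^ 2) *
        Real.exp (F q)) N.mu := by
    refine Imm.integrable_of_support hN.cs (((continuous_const.mul (hN.sm.gam hN.sm).continuous).add
      (((hF.res loc).EF.continuous.sub cG').mul (cz'.pow 2))).mul
        (by fun_prop)) fun q hq => ?_
    rw [image_eq_zero_of_notMem_tsupport (f := fun q : M.Sig 𝒰 u => z q) hq, Imm.gam_apply]
    simp [Imm.D_eq_zero_of_notMem hq]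
  have j0 : 0 ≤ ∫ q : M.Sig 𝒰 u, z q ^ 2 * Real.exp (F q) ∂N.mu :=
    integral_nonneg fun q => by positivity
  have e1 : ∀ q : M.Sig 𝒰 u, ∫ t, (2 * gamJ (N.cylP q) (z q) (η t) (deriv η t)
      (fun b => M.pre.D b z q) + (efJ (N.cylP q) (N.cylB q) (fun b => M.pre.D b F q)
      (fun e b => M.pre.D e (M.pre.D b F) q) - (M.pre.EF F q + h q ^ 2 -
        2 * √(M.pre.gam h h q - N.pre.gam (fun q => h q) (fun q => h q) q)) + ε) *
      (z q * η t) ^ 2) * Real.exp (F q) =
      (∫ t, η t ^ 2) * ((2 * N.pre.gam (fun q => z q) (fun q => z q) q +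
        (N.pre.EF (fun q => F q) q - (M.pre.EF F q + h q ^ 2 -
        2 * √(M.pre.gam h h q - N.pre.gam (fun q => h q) (fun q => h q) q))) * z q ^ 2) *
          Real.exp (F q)) +
      ((∫ t, η t ^ 2) * ε + (∫ t, deriv η t ^ 2) * 2) * (z q ^ 2 * Real.exp (F q)) := fun q => by
    refine (integral_congr_ae (Eventually.of_forall fun t => ?_)).trans
      ((intg_lin i1 i2 ((2 * N.pre.gam (fun q => z q) (fun q => z q) q +
        (N.pre.EF (fun q => F q) q - (M.pre.EF F q + h q ^ 2 -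
        2 * √(M.pre.gam h h q - N.pre.gam (fun q => h q) (fun q => h q) q)) + ε) * z q ^ 2) *
          Real.exp (F q)) (2 * (z q ^ 2 * Real.exp (F q)))).trans (by ring))
    have a1 := gam_cyl loc hz (η t) (deriv η t) q
    have a2 := ef_cyl loc hF q
    rw [a1, a2]
    ring
  simp only [gc, e1] at l2
  rw [integral_add (j2.const_mul _) (j1.const_mul _), integral_const_mul, integral_const_mul] at l2
  refine le_of_mul_le_mul_left ?_ ha
  nlinarith [mul_le_mul_of_nonneg_right hb j0]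

theorem lim_of (hN : WNetStmt) (hV : WConvStmt) (hP : PicStmt) (hS : SheetStmt) : WLimStmt := by
  intro m ι _ _ X _ _ _ _ _ _ M F h Λ 𝒰 u τ s hi hF hs
  obtain ⟨N, hn⟩ := hV m ι X M F h Λ 𝒰 u τ s hi hF hs
  obtain ⟨hB, hnet⟩ := hN m ι X M F h Λ 𝒰 u τ s hi hF hs
  obtain ⟨C, hC0, hC⟩ := hS (m + 1) ι X M F hi hF Λ
  refine ⟨N, hn, fun G hG hle => ⟨hn.x, hB, fun p hp => hp.1, hnet,
    ⟨C, Lm.lim_H hn.int hB hC0 fun j => hC _ (hs.adm j)⟩, fun z hz => ?_⟩⟩
  obtain ⟨z', hz', hd, e⟩ := hn.ext z hz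
  obtain rfl : (fun q : M.Sig 𝒰 u => z' q) = z := funext e
  have loc := Loc.of_cont continuous_subtype_val hn.x
  have ig : ∀ {G : M.Sig 𝒰 u → ℝ}, Continuous G → Integrable (fun q : M.Sig 𝒰 u =>
      (2 * N.pre.gam (fun q => z' q) (fun q => z' q) q +
      (N.pre.EF (fun q => F q) q - G q) * z' q ^ 2) * Real.exp (F q)) N.mu := fun hG => by
    refine Imm.integrable_of_support hz.cs (((continuous_const.mul (hz.sm.gam hz.sm).continuous).add
      (((hF.res loc).EF.continuous.sub hG).mul (hz.sm.continuous.pow 2))).mul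
        (hF.res loc).exp.continuous) fun q hq => ?_
    rw [image_eq_zero_of_notMem_tsupport (f := fun q : M.Sig 𝒰 u => z' q) hq, Imm.gam_apply]
    simp [Imm.D_eq_zero_of_notMem hq]
  have cG' : Continuous fun q : M.Sig 𝒰 u => M.pre.EF F q + h q ^ 2 -
      2 * √(M.pre.gam h h q - N.pre.gam (fun q => h q) (fun q => h q) q) := by
    have := ((hs.smh.res loc).gam (hs.smh.res loc)).continuous
    have cE := hF.EF.continuous
    have ch := hs.smh.continuous
    have cg := (hs.smh.gam hs.smh).continuous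
    fun_prop
  refine le_trans ?_ (integral_mono (ig cG') (ig (hG.comp continuous_subtype_val)) fun q =>
    mul_le_mul_of_nonneg_right (add_le_add le_rfl (mul_le_mul_of_nonneg_right
      (sub_le_sub_left (hle q) _) (sq_nonneg _))) (Real.exp_pos _).le)
  refine le_of_forall_pos_le_add fun δ hδ => ?_
  have j0 : 0 ≤ ∫ q : M.Sig 𝒰 u, z' q ^ 2 * Real.exp (F q) ∂N.mu :=
    integral_nonneg fun q => by positivity
  refine (lim_form hP hn.int hn.x hF hs hz' hd hz
    (ε := δ / (3 * (∫ q : M.Sig 𝒰 u, z' q ^ 2 * Real.exp (F q) ∂N.mu) + 1))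
    (by positivity)).trans (add_le_add le_rfl ?_)
  rw [div_mul_eq_mul_div, div_le_iff₀ (by positivity)]
  nlinarith

end W

end Crest.Agent.N228

end
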