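import Crest.Agent.N228.W.Cyl
import Crest.Agent.N228.W.Box
import Crest.Agent.N228.W.Conv
import Crest.Agent.N228.W.Lim
import Crest.Agent.N228.W.Amb
import Crest.Agent.N222.B.Mon
import Crest.Agent.N222.B.Mon2
import Crest.Agent.N222.B.Tan
import Crest.Agent.N222.B.Sheet
import Crest.Agent.N222.B.Sim
import Crest.Agent.N222.B.Cal
import Crest.Agent.N222.B.SSY
import Crest.Agent.N222.B.Blow
import Crest.Agent.N222.B.LV1
import Crest.Agent.N222.B.LV2
import Crest.Agent.N222.B.FL
import Crest.Agent.N222.B.FL2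
import Crest.Agent.N222.B.W
import Crest.Agent.N222.B.W2
import Crest.Agent.N222.B.QReg
import Crest.Agent.N222.B.Pic

/-! # Row 228, necks (helper16): the unconditional statements -/

set_option autoImplicit false

namespace Crest.Agent.N228

open Crest.Agent.N222

theorem wCyl : WCylStmt := W.cyl_of sheet (mon2 mon tan) cal

theorem wW2 : W2Stmt :=
  w2 mon (mon2 mon tan) sheet
    (w mon (mon2 mon tan) sheet sim cal (blow tan (mon2 mon tan) sheet cal) lv3)

theorem wNet : WNetStmt :=
  W.net_of wW2 (fl sheet cal (blow tan (mon2 mon tan) sheet cal) lv1 lv2) (ssy sim cal) cal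

theorem wBox : WBoxStmt := W.box wCyl (mon2 mon tan) sheet qReg

theorem wAllHt : WAllHtStmt :=
  W.allHt_of wCyl wBox (fl2 (blow tan (mon2 mon tan) sheet cal) lv1) wW2

theorem wConv : WConvStmt := W.conv_of wCyl wNet wBox wAllHt

theorem wLim : WLimStmt := W.lim_of wNet wConv pic sheet

end Crest.Agent.N228
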