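import Crest.Agent.N222.B.Defs2

/-!
# Row 228, necks (helper16): sequences with a LOCAL equation

`WSeq` is `Imm.Seq` of row 222 with the Jang equation only on slabs of bounded height.
-/

set_option autoImplicit false
open MeasureTheory Set Filter Topology Function Metric
open scoped ContDiff InnerProductSpace RealInnerProductSpace

noncomputable section

namespace Crest.Agent.N228

open Crest.Agent.N222

variable {d : ℕ} {ι : Type} [Fintype ι] [DecidableEq ι] {X : Type} [TopologicalSpace X]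
  [MeasurableSpace X]

/-- a blowing-up sequence of admissible graphs which solve the Jang equation at bounded heights -/
structure WSeq (M : Imm d ι X) (F h : X → ℝ) (Λ : ℝ) (𝒰 : Ultrafilter ℕ) (u : ℕ → X → ℝ)
    (τ s : ℕ → ℝ) : Prop where
  smh : M.Sm h
  adm : ∀ j, M.Adm F Λ (u j)
  pos : ∀ j, 0 < τ j
  tau : Tendsto τ 𝒰 (𝓝 0)
  sh : Tendsto s 𝒰 (𝓝 0)
  eq : ∀ T : ℝ, ∀ᶠ j in (𝒰 : Filter ℕ), ∀ p, |u j p| ≤ T →
    M.hF F (u j) p = τ j * u j p + s j - h p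
  thin : ∀ T : ℝ, Tendsto (fun j => M.mu.real {p | |u j p| ≤ T}) 𝒰 (𝓝 0)

/-- compact embedded manifolds of positive dimension with a weak sequence -/
def AllW (Q : ∀ (m : ℕ) (ι : Type) [Fintype ι] [DecidableEq ι] (X : Type) [TopologicalSpace X]
    [T2Space X] [SecondCountableTopology X] [MeasurableSpace X] [BorelSpace X] [CompactSpace X],
    Imm (m + 1) ι X → (X → ℝ) → (X → ℝ) → Ultrafilter ℕ → (ℕ → X → ℝ) → Prop) : Prop :=
  ∀ (m : ℕ) (ι : Type) [Fintype ι] [DecidableEq ι] (X : Type) [TopologicalSpace X]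
    [T2Space X] [SecondCountableTopology X] [MeasurableSpace X] [BorelSpace X] [CompactSpace X]
    (M : Imm (m + 1) ι X) (F h : X → ℝ) (Λ : ℝ) (𝒰 : Ultrafilter ℕ) (u : ℕ → X → ℝ)
    (τ s : ℕ → ℝ), Injective M.x → M.Sm F → WSeq M F h Λ 𝒰 u τ s → Q m ι X M F h 𝒰 u

/-- the limit is a cylinder -/
def WCylStmt : Prop := AllW fun _ _ _ _ _ _ _ _ _ _ _ _ _ _ 𝒰 u =>
  (∀ p ∈ Sb 𝒰 u, ∀ t : ℝ, ∀ N ∈ 𝓝 p, ∀ᶠ j in (𝒰 : Filter ℕ), ∃ q ∈ N, u j q = t) ∧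
  ∀ p, p ∉ Sb 𝒰 u → ∀ T : ℝ, ∃ N ∈ 𝓝 p, ∀ᶠ j in (𝒰 : Filter ℕ), ∀ q ∈ N, T < |u j q|

/-- the bad set is small -/
def WNetStmt : Prop := AllW fun m _ _ _ _ _ _ _ _ _ _ M _ _ 𝒰 u =>
  IsClosed (M.Bad 𝒰 u) ∧ M.Nets m (M.Bad 𝒰 u)

/-- local graphs -/
def WBoxStmt : Prop := AllW fun _ _ _ _ _ _ _ _ _ _ _ M _ _ 𝒰 u =>
  ∀ p ∈ Sb 𝒰 u, ∀ t, M.Reg 𝒰 u p t → ∃ e ρ c, Box M 𝒰 u p t e ρ c

/-- regular at one height is regular at all heights -/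
def WAllHtStmt : Prop := AllW fun _ _ _ _ _ _ _ _ _ _ _ M _ _ 𝒰 u =>
  ∀ p ∈ M.Sig 𝒰 u, ∀ t, M.Reg 𝒰 u p t

/-- the first jet of the projection of the graph of `u` -/
def gJ (M : Imm d ι X) (u : X → ℝ) (q : X) :
    (Option ι → Option ι → ℝ) × (Option ι → Option ι → Option ι → ℝ) :=
  (fun b c => (M.gS u).P b c q, fun a b c => (M.gS u).D a ((M.gS u).P b c) q)

/-- The neck: the regular part of the slice is a hypersurface `N`, and the graphs converge to the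
cylinder over it, in the integral sense and pointwise. -/
structure Neck {m : ℕ} (M : Imm (m + 1) ι X) (𝒰 : Ultrafilter ℕ) (u : ℕ → X → ℝ)
    (N : Imm m ι (M.Sig 𝒰 u)) : Prop where
  x : ∀ q, N.x q = M.x q
  chart : ∀ q ∈ M.Sig 𝒰 u, ∃ e : OpenPartialHomeomorph X (E (Fin (m + 1))), IsChart M.x e ∧
    q ∈ e.source ∧ ∀ p ∈ e.source, p ∈ M.Sig 𝒰 u ↔ e p 0 = 0
  ext : ∀ z, N.Tst z → ∃ z', M.Sm z' ∧ Disjoint (tsupport z') (M.Bad 𝒰 u) ∧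
    ∀ q : M.Sig 𝒰 u, z' q = z q
  int : ∀ (Ψ : X × ℝ × (Option ι → Option ι → ℝ) × (Option ι → Option ι → Option ι → ℝ) → ℝ)
    (K : Set X) (T : ℝ), Continuous Ψ → IsCompact K → Disjoint K (M.Bad 𝒰 u) →
    (∀ s, Ψ s ≠ 0 → s.1 ∈ K ∧ |s.2.1| ≤ T) →
    Tendsto (fun j => ∫ q, Ψ (q, u j q, fun b c => (M.gS (u j)).P b c q,
        fun a b c => (M.gS (u j)).D a ((M.gS (u j)).P b c) q) ∂M.gmu (u j)) 𝒰
      (𝓝 (∫ q : M.Sig 𝒰 u, (∫ t : ℝ, Ψ (q, t, N.cylP q, N.cylB q)) ∂N.mu))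
  /-- pointwise convergence of the jets -/
  jet : ∀ (q : ℕ → X) (p : M.Sig 𝒰 u) (t : ℝ), Tendsto q 𝒰 (𝓝 p) →
    Tendsto (fun j => u j (q j)) 𝒰 (𝓝 t) →
    Tendsto (fun j => gJ M (u j) (q j)) 𝒰 (𝓝 (N.cylP p, N.cylB p))
  /-- open conditions on the jets pass from the cylinder to the graphs -/
  opn : ∀ (O : Set (X × ℝ × (Option ι → Option ι → ℝ) × (Option ι → Option ι → Option ι → ℝ)))
    (K : Set X) (a b : ℝ), IsOpen O → IsCompact K → Disjoint K (M.Bad 𝒰 u) →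
    (∀ p : M.Sig 𝒰 u, p.1 ∈ K → ∀ t ∈ Icc a b, (p.1, t, N.cylP p, N.cylB p) ∈ O) →
    ∀ᶠ j in (𝒰 : Filter ℕ), ∀ q ∈ K, u j q ∈ Icc a b → (q, u j q, gJ M (u j) q) ∈ O

/-- convergence to the cylinder -/
def WConvStmt : Prop := AllW fun m ι _ _ _ _ _ _ _ _ _ M _ _ 𝒰 u =>
  ∃ N : Imm m ι (M.Sig 𝒰 u), Neck M 𝒰 u N

/-- The slice, with the SHARP potential: only the derivative of `h` normal to the slice is paid. -/
def WLimStmt : Prop := AllW fun m ι _ _ X _ _ _ _ _ _ M F h 𝒰 u =>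
  ∃ N : Imm m ι (M.Sig 𝒰 u), Neck M 𝒰 u N ∧
    ∀ G : X → ℝ, Continuous G → (∀ q : M.Sig 𝒰 u, G q ≤ M.pre.EF F q + h q ^ 2 -
      2 * √(M.pre.gam h h q - N.pre.gam (fun q => h q) (fun q => h q) q)) →
      Slice M F G (Sb 𝒰 u) (M.Bad 𝒰 u) N

end Crest.Agent.N228

end
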