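import Crest.Agent.N228.W.Defs
import Crest.Agent.N222.L.Cyl
import Crest.Agent.N222.L.Net
import Crest.Agent.N222.L.AllHt

/-!
# Row 228, necks (helper16): cylinder, bad set, all heights (copies of the proofs of row 222)
-/

set_option autoImplicit false
set_option linter.unusedSectionVars false
open MeasureTheory Set Filter Topology Function Metric
open scoped ContDiff InnerProductSpace RealInnerProductSpace

noncomputable section

namespace Crest.Agent.N228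

open Crest.Agent.N222

namespace W

open Lm Lm.Cy in
/-- KEY: near a point of bounded height the graphs go far up and far down. -/
theorem cyl_key (hS : SheetStmt) (hM : Mon2Stmt) (hC : CalStmt) :
    AllW fun _ _ _ _ _ _ _ _ _ _ _ M _ _ 𝒰 u => ∀ T r : ℝ, 0 < r →
      ∀ᶠ j in (𝒰 : Filter ℕ), ∀ q, |u j q| ≤ T →
        (∃ q', ‖M.x q' - M.x q‖ < r ∧ u j q' < -T) ∧ ∃ q', ‖M.x q' - M.x q‖ < r ∧ T < u j q' := by
  intro m ι _ _ X _ _ _ _ _ _ M F h Λ 𝒰 u τ s hinj hF hseq T r hr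
  obtain ⟨C1, -, h1⟩ := hS (m + 1) ι X M F hinj hF Λ
  obtain ⟨C2, hC2, h2⟩ := hC (m + 1) ι X M F hinj hF Λ
  have hρ : 0 < r / 2 := half_pos hr
  set ρ := r / 2 with hρdef
  have hρr : ρ < r := half_lt_self hr
  obtain ⟨K, hK, hG⟩ := exists_G_le (V := E (Option ι)) hρ hC2
  have hc : 0 < cPhi (m + 1) * ρ ^ (m + 1) / Real.exp (C1 * ρ) := by
    have := EP.cPhi_pos (m + 1)
    positivity
  have hev := ((hseq.thin (T + ρ)).const_mul (K * (2 * ρ))).eventually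
    (gt_mem_nhds (by simpa using hc))
  filter_upwards [hev] with j hj q hq
  have hu := (hseq.adm j).sm
  have low : cPhi (m + 1) * ρ ^ (m + 1) / Real.exp (C1 * ρ) ≤
      ∫ p, Phi (‖M.gx (u j) p - M.gx (u j) q‖ ^ 2 / ρ ^ 2) ∂M.gmu (u j) := by
    have := EP.gTh_low hM hinj hu (h1 _ (hseq.adm j)) q hρ
    rw [Imm.gTh, ← mul_div_assoc, le_div_iff₀ (by positivity)] at this
    rw [div_le_iff₀ (Real.exp_pos _)]
    linarith
  obtain ⟨cal1, cal2⟩ := (h2 _ (hseq.adm j)).1 _ (EP.contDiff_Phi_ball (M.gx (u j) q) ρ)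
    (EP.hcs_Phi _ hρ) fun y => Phi_nonneg _
  rw [abs_le] at hq
  constructor
  · by_contra hn
    push Not at hn
    have := side M hu.continuous q (T := T + ρ) hρ hC2 hK hG (fun p => Ioi (u j p))
      (fun _ => measurableSet_Ioi) fun p hp t ht h3 => by
        have h4 := hn p (hp.trans_lt hρr)
        have h5 : u j p < t := ht
        rw [abs_le] at h3 ⊢
        constructor <;> linarith [h3.2, hq.2]
    exact absurd ((low.trans cal2).trans this) (not_le.2 hj)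
  · by_contra hn
    push Not at hn
    have := side M hu.continuous q (T := T + ρ) hρ hC2 hK hG (fun p => Iic (u j p))
      (fun _ => measurableSet_Iic) fun p hp t ht h3 => by
        have h4 := hn p (hp.trans_lt hρr)
        have h5 : t ≤ u j p := ht
        rw [abs_le] at h3 ⊢
        constructor <;> linarith [h3.1, hq.1]
    exact absurd ((low.trans cal1).trans this) (not_le.2 hj)

theorem cyl_of (hS : SheetStmt) (hM : Mon2Stmt) (hC : CalStmt) : WCylStmt := by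
  intro m ι _ _ X _ _ _ _ _ _ M F h Λ 𝒰 u τ s hinj hF hseq
  have key := cyl_key hS hM hC m ι X M F h Λ 𝒰 u τ s hinj hF hseq
  have tri : ∀ {p q q' : X} {r : ℝ}, ‖M.x q - M.x p‖ < r / 2 → ‖M.x q' - M.x q‖ < r / 2 →
      ‖M.x q' - M.x p‖ < r := fun {p q q' r} h1 h2 => by
    linarith [norm_sub_le_norm_sub_add_norm_sub (M.x q') (M.x q) (M.x p)]
  constructor
  · intro p hp t N hN
    haveI := M.locallyConnected
    obtain ⟨N1, h1, c1, s1⟩ := locallyConnectedSpace_iff_connected_subsets.1 inferInstance p N hN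
    obtain ⟨r, hr, b1⟩ := (Imm.mem_nhds_iff_ball hinj).1 h1
    obtain ⟨N2, h2, c2, s2⟩ := locallyConnectedSpace_iff_connected_subsets.1 inferInstance p
      {q | ‖M.x q - M.x p‖ < r / 2} ((Imm.mem_nhds_iff_ball hinj).2 ⟨_, half_pos hr, fun _ h => h⟩)
    have hp1 : ¬ ∀ᶠ j in (𝒰 : Filter ℕ), ∀ q ∈ N2, 0 < u j q := fun h =>
      hp (Or.inl ⟨N2, h2, h⟩)
    have hp2 : ¬ ∀ᶠ j in (𝒰 : Filter ℕ), ∀ q ∈ N2, 0 < -u j q := fun h =>
      hp (Or.inr ⟨N2, h2, h⟩)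
    filter_upwards [Ultrafilter.eventually_not.2 hp1, Ultrafilter.eventually_not.2 hp2,
      key |t| (r / 2) (half_pos hr)] with j e1 e2 e3
    push Not at e1 e2
    obtain ⟨a, ha, ha0⟩ := e1
    obtain ⟨b, hb, hb0⟩ := e2
    have hu := (hseq.adm j).sm.continuous
    obtain ⟨q0, hq0, h0⟩ := c2.intermediate_value ha hb hu.continuousOn
      (⟨ha0, by linarith⟩ : (0 : ℝ) ∈ Icc (u j a) (u j b))
    obtain ⟨⟨q1, d1, l1⟩, q2, d2, l2⟩ := e3 q0 (by rw [h0, abs_zero]; exact abs_nonneg t)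
    obtain ⟨q, hq, ht⟩ := c1.intermediate_value (b1 q1 (tri (s2 hq0) d1))
      (b1 q2 (tri (s2 hq0) d2)) hu.continuousOn
      (⟨by linarith [neg_abs_le t], by linarith [le_abs_self t]⟩ : t ∈ Icc (u j q1) (u j q2))
    exact ⟨q, s1 hq, ht⟩
  · intro p hp T
    have hp' : p ∈ Upos 𝒰 u ∪ Upos 𝒰 fun j q => -u j q := not_not.1 hp
    have main : ∀ N ∈ 𝓝 p, (∀ᶠ j in (𝒰 : Filter ℕ), (∀ q ∈ N, 0 < u j q) ∨ ∀ q ∈ N, 0 < -u j q) →
        ∃ N ∈ 𝓝 p, ∀ᶠ j in (𝒰 : Filter ℕ), ∀ q ∈ N, T < |u j q| := fun N hN he => by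
      obtain ⟨r, hr, b⟩ := (Imm.mem_nhds_iff_ball hinj).1 hN
      refine ⟨{q | ‖M.x q - M.x p‖ < r / 2},
        (Imm.mem_nhds_iff_ball hinj).2 ⟨_, half_pos hr, fun _ h => h⟩, ?_⟩
      filter_upwards [he, key |T| (r / 2) (half_pos hr)] with j e1 e2 q hq
      by_contra hn
      obtain ⟨⟨q1, d1, l1⟩, q2, d2, l2⟩ := e2 q ((not_lt.1 hn).trans (le_abs_self T))
      rcases e1 with e1 | e1
      · linarith [e1 q1 (b q1 (tri hq d1)), abs_nonneg T]
      · linarith [e1 q2 (b q2 (tri hq d2)), abs_nonneg T]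
    rcases hp' with ⟨N, hN, he⟩ | ⟨N, hN, he⟩
    · exact main N hN (he.mono fun j h => Or.inl h)
    · exact main N hN (he.mono fun j h => Or.inr h)

open Lm in
/-- curvature concentrates at every scale at a point that is not regular -/
theorem conc (hW : W2Stmt) (hF : FLStmt) (hC : CalStmt) :
    AllW fun m _ _ _ _ _ _ _ _ _ _ M _ _ 𝒰 u => ∃ c : ℝ, 0 < c ∧ ∀ p t, ¬ M.Reg 𝒰 u p t →
      ∀ r : ℝ, 0 < r → r ≤ 1 → ∀ᶠ j in (𝒰 : Filter ℕ), c * r ^ (m + 1) ≤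
        r ^ 4 * ∫ q in {q | ‖M.gx (u j) q - up t (M.x p)‖ ≤ r / 3}, M.a2 (u j) q ^ 2 ∂M.gmu (u j) := by
  intro m ι _ _ X _ _ _ _ _ _ M F h Λ 𝒰 u τ s hM hFs hseq
  obtain ⟨ε, θ, C, hε, hθ, hW2⟩ := hW _ _ _ M F hM hFs Λ (1 / 100) (by norm_num)
  obtain ⟨R, η, hR, hη, hFL⟩ := hF _ _ _ M F hM hFs Λ ε hε
  obtain ⟨C0, hC0, hCal⟩ := hC _ _ _ M F hM hFs Λ
  set k := min (min ε η) (1 / (3 * (R + 1))) with hk
  have hk0 : 0 < k := by positivity
  have hk1 : k * (3 * (R + 1)) ≤ 1 := (le_div_iff₀ (by positivity)).1 (min_le_right _ _)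
  have hkε : k ≤ ε := (min_le_left _ _).trans (min_le_left _ _)
  have hkη : k ≤ η := (min_le_left _ _).trans (min_le_right _ _)
  have hk2 : k ≤ 1 := by nlinarith
  refine ⟨η ^ 2 * k ^ (m + 1) / ((C0 + 1) * R ^ (m + 1)), by positivity, fun p t hp r hr hr1 => ?_⟩
  have hr' : 0 < k * r := by positivity
  have hkr : k * r ≤ k := mul_le_of_le_one_right hk0.le hr1
  have h1 : ¬ ∀ᶠ j in (𝒰 : Filter ℕ), M.Flat ε (u j) (up t (M.x p)) (k * r) := fun h1 =>
    hp ⟨θ * (k * r), C / (k * r) ^ 2, by positivity, h1.mono fun j hj q q' hq hq' => by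
      obtain ⟨h2, h3⟩ := hW2 _ (hseq.adm j) _ _ hr' (hkr.trans hkε) hj q q' hq hq'
      exact ⟨(le_div_iff₀' (by positivity)).2 h2, h3⟩⟩
  filter_upwards [Ultrafilter.eventually_not.2 h1] with j hj
  have hu := (hseq.adm j).sm
  have := Imm.isFiniteMeasure_gmu hu
  simp only [Imm.Flat, not_forall, not_le] at hj
  obtain ⟨q, hq, hq'⟩ := hj
  have h2 := lt_of_not_ge fun h2 =>
    (hFL _ (hseq.adm j) q _ hr' (hkr.trans hkη) h2).not_gt hq'
  have h3 := (hCal _ (hseq.adm j)).2.1 (M.gx (u j) q) (R * (k * r)) (by positivity) (by nlinarith)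
  have hi2 := EP.integrable_gmu hu (hu.a2.continuous.pow 2)
  have h4 : ∫ q' in {q' | ‖M.gx (u j) q' - M.gx (u j) q‖ ≤ R * (k * r)}, M.a2 (u j) q' ^ 2 ∂M.gmu (u j)
      ≤ ∫ q' in {q' | ‖M.gx (u j) q' - up t (M.x p)‖ ≤ r / 3}, M.a2 (u j) q' ^ 2 ∂M.gmu (u j) := by
    refine setIntegral_mono_set hi2.integrableOn (.of_forall fun _ => sq_nonneg _)
      (LE.le.eventuallyLE fun q' hq' => ?_)
    have h5 := norm_sub_le_norm_sub_add_norm_sub (M.gx (u j) q') (M.gx (u j) q) (up t (M.x p))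
    have h6 : ‖M.gx (u j) q' - M.gx (u j) q‖ ≤ R * (k * r) := hq'
    have h7 := mul_le_mul_of_nonneg_right hk1 hr.le
    show _ ≤ r / 3
    nlinarith
  set l := (k * r) ^ 2 * ((C0 + 1) * R ^ (m + 1)) / (2 * η) with hl
  have hl0 : 0 < l := by positivity
  have h5 := setIntegral_mono (s := {q' | ‖M.gx (u j) q' - M.gx (u j) q‖ ≤ R * (k * r)})
    (EP.integrable_gmu hu hu.a2.continuous).integrableOn
    ((hi2.const_mul l).add (integrable_const (1 / (4 * l)))).integrableOn fun q' => by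
      have e1 : l * M.a2 (u j) q' ^ 2 + 1 / (4 * l) - M.a2 (u j) q' =
          (2 * l * M.a2 (u j) q' - 1) ^ 2 / (4 * l) := by field_simp; ring
      have e2 : 0 ≤ (2 * l * M.a2 (u j) q' - 1) ^ 2 / (4 * l) := by positivity
      show _ ≤ l * M.a2 (u j) q' ^ 2 + 1 / (4 * l)
      linarith
  simp only [Pi.add_apply] at h5
  rw [integral_add (hi2.const_mul l).integrableOn (integrable_const _), integral_const_mul,
    setIntegral_const, smul_eq_mul] at h5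
  exact conc_aux hη hC0 (by linarith) hk0 hk2 hr hl h2 h3 h4 h5
    (integral_nonneg fun _ => sq_nonneg _)

theorem net_of (hW : W2Stmt) (hF : FLStmt) (hY : SSYStmt) (hC : CalStmt) : WNetStmt := by
  intro m ι _ _ X _ _ _ _ _ _ M F h Λ 𝒰 u τ s hM hFs hseq
  obtain ⟨c, hc, hconc⟩ := conc hW hF hC m ι X M F h Λ 𝒰 u τ s hM hFs hseq
  obtain ⟨C, hSSY⟩ := hY _ _ _ M F hM hFs Λ 2
  refine ⟨Lm.isClosed_Bad M 𝒰 u, C / c, fun r hr hr1 => ?_⟩
  have key : ∀ S : Finset X, (∀ p ∈ S, p ∈ M.Bad 𝒰 u) →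
      (∀ p ∈ S, ∀ q ∈ S, p ≠ q → r < ‖M.x p - M.x q‖) → (S.card : ℝ) * r ^ m ≤ C / c * r ^ 4 := by
    intro S hS hsep
    set n := ⌈1 / r⌉₊ with hn
    have hn1 : 1 ≤ n * r := (div_le_iff₀ hr).1 (Nat.le_ceil _)
    have hn2 : ∀ i ∈ Finset.range n, (i : ℝ) * r ≤ 1 := fun i hi =>
      (le_div_iff₀ hr).1 (Nat.lt_ceil.1 (Finset.mem_range.1 hi)).le
    obtain ⟨j, hj⟩ := ((eventually_all_finset (S ×ˢ Finset.range n)).2 fun z hz =>
      hconc z.1 (z.2 * r) ((hS _ (Finset.mem_product.1 hz).1).2 _) r hr hr1).exists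
    have hu := (hseq.adm j).sm
    have hi2 := EP.integrable_gmu hu (hu.a2.continuous.pow 2)
    let A : X × ℕ → Set X := fun z => {q | ‖M.gx (u j) q - up (z.2 * r) (M.x z.1)‖ ≤ r / 3}
    have hA : ∀ z, MeasurableSet (A z) := fun z =>
      (isClosed_le ((Imm.sm_gx hu).continuous.sub continuous_const).norm
        continuous_const).measurableSet
    have hdis : Set.Pairwise (↑(S ×ˢ Finset.range n)) (Disjoint on A) := by
      intro z hz z' hz' hne
      refine Set.disjoint_left.2 fun q hq hq' => ?_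
      have e1 : ‖M.gx (u j) q - up (z.2 * r) (M.x z.1)‖ ≤ r / 3 := hq
      have e2 : ‖M.gx (u j) q - up (z'.2 * r) (M.x z'.1)‖ ≤ r / 3 := hq'
      have e3 := norm_sub_le_norm_sub_add_norm_sub (up (z.2 * r) (M.x z.1)) (M.gx (u j) q)
        (up (z'.2 * r) (M.x z'.1))
      rw [norm_sub_rev _ (M.gx (u j) q)] at e3
      by_cases e4 : z.1 = z'.1
      · have e5 : z.2 ≠ z'.2 := fun e5 => hne (Prod.ext e4 e5)
        have e6 := abs_none_le (up (z.2 * r) (M.x z.1) - up (z'.2 * r) (M.x z'.1))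
        rw [up_sub, up_none, ← up_sub, ← sub_mul, abs_mul, abs_of_pos hr] at e6
        have e7 : (1 : ℝ) ≤ |(z.2 : ℝ) - z'.2| := by
          have : (1 : ℤ) ≤ |(z.2 : ℤ) - z'.2| := Int.one_le_abs (sub_ne_zero.2 (by exact_mod_cast e5))
          exact_mod_cast this
        nlinarith
      · have e5 := hsep _ (Finset.mem_product.1 hz).1 _ (Finset.mem_product.1 hz').1 e4
        have e6 := norm_down_le (up (z.2 * r) (M.x z.1) - up (z'.2 * r) (M.x z'.1))
        rw [down_sub, down_up, down_up] at e6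
        linarith
    have h1 := integral_biUnion_finset (S ×ˢ Finset.range n) (fun z _ => hA z) hdis
      fun z _ => hi2.integrableOn
    have h2 : ∫ q in ⋃ z ∈ S ×ˢ Finset.range n, A z, M.a2 (u j) q ^ 2 ∂M.gmu (u j) ≤ C := by
      refine le_trans (setIntegral_mono_set hi2.integrableOn (.of_forall fun _ => sq_nonneg _)
        (LE.le.eventuallyLE fun q hq => ?_)) (hSSY _ (hseq.adm j))
      obtain ⟨z, hz, hq⟩ := mem_iUnion₂.1 hq
      have e1 := (Imm.abs_u_sub_le (u j) q _).trans hq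
      have e2 := hn2 _ (Finset.mem_product.1 hz).2
      have e3 : 0 ≤ (z.2 : ℝ) * r := by positivity
      rw [up_none, abs_le] at e1
      show |u j q| ≤ 2
      rw [abs_le]; constructor <;> linarith [e1.1, e1.2]
    have h3 := Finset.sum_le_sum hj
    rw [Finset.sum_const, Finset.card_product, Finset.card_range, nsmul_eq_mul, ← Finset.mul_sum]
      at h3
    have h4 : ((S.card * n : ℕ) : ℝ) * (c * r ^ (m + 1)) ≤ r ^ 4 * C :=
      h3.trans (mul_le_mul_of_nonneg_left (h1.symm.le.trans h2) (by positivity))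
    have h5 : (S.card : ℝ) * r ^ m * c * 1 ≤ S.card * r ^ m * c * (n * r) :=
      mul_le_mul_of_nonneg_left hn1 (by positivity)
    rw [div_mul_eq_mul_div, le_div_iff₀ hc]
    push_cast at h4
    rw [pow_succ] at h4
    linarith
  obtain ⟨S, h1, h2, h3⟩ := Lm.exists_net M.x (M.Bad 𝒰 u) hr (C / c * r ^ 4 / r ^ m)
    fun S h1 h2 => (le_div_iff₀ (by positivity)).2 (key S h1 h2)
  exact ⟨S, h1, key S h1 h2, h3⟩

theorem allHt_of (hC : WCylStmt) (hB : WBoxStmt) (hF : FL2Stmt) (hW : W2Stmt) : WAllHtStmt := by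
  intro m ι _ _ X _ _ _ _ _ _ M F h Λ 𝒰 u τ s hM hFs hq p hp t
  obtain ⟨t0, ht0⟩ : ∃ t0, M.Reg 𝒰 u p t0 := by
    by_contra! H
    exact hp.2 ⟨hp.1, H⟩
  obtain ⟨e, ρ, c, B⟩ := hB m ι X M F h Λ 𝒰 u τ s hM hFs hq p hp.1 t0 ht0
  obtain ⟨f, hf, hfe⟩ : ∃ f : X → ℝ, M.Sm f ∧ ∀ᶠ q in 𝓝 p, f q = e q 0 :=
    ((Imm.smOn_chart B.ch).comp (g := fun z => z 0) fun _ _ =>
      (EuclideanSpace.proj (𝕜 := ℝ) (0 : Fin (m + 1))).contDiff.contDiffAt).exists_sm_at
      e.open_source B.mem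
  have hg : 0 < ‖M.grad f p‖ := norm_pos_iff.2 fun h0 => by
    have h1 : f ∘ e.symm =ᶠ[𝓝 (e p)] EuclideanSpace.proj (𝕜 := ℝ) (0 : Fin (m + 1)) :=
      (symm_eventuallyEq B.mem hfe).trans
        ((e.open_target.eventually_mem (e.map_source B.mem)).mono fun z hz => by
          simp [e.right_inv hz])
    have h2 := congrArg (fun T : E (Fin (m + 1)) →L[ℝ] ℝ => T (ee 0)) (Imm.fderiv_chart f B.ch B.mem)
    rw [h1.fderiv_eq, ContinuousLinearMap.fderiv] at h2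
    simp [Imm.td_eq_inner, h0] at h2
  set n := ‖M.grad f p‖⁻¹ • M.grad f p with hn
  have hn1 : ‖n‖ = 1 := norm_smul_inv_norm (norm_pos_iff.1 hg)
  have hup : ∀ y : E ι, ‖up 0 y‖ = ‖y‖ := fun y =>
    (sq_eq_sq₀ (norm_nonneg _) (norm_nonneg _)).1 (by rw [norm_sq_up]; ring)
  have hN : ∀ᶠ q in 𝓝 p, 1 / 2 ≤ ‖M.PL q n‖ :=
    ((M.sm_PL.continuous.clm_apply continuous_const).norm.tendsto p).eventually_const_le
      (by rw [hn, map_smul, Imm.PL_grad, ← hn, hn1]; norm_num)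
  obtain ⟨r1, hr1, h1⟩ := (Imm.mem_nhds_iff_ball hM).1
    (((e.open_source.eventually_mem B.mem).and hfe).and hN)
  obtain ⟨ε, θ, C, hε, hθ, hW'⟩ := hW _ ι X M F hM hFs Λ (1 / 100) (by norm_num)
  obtain ⟨R, η, hR, hη, hF'⟩ := hF _ ι X M F hM hFs Λ ε hε
  obtain ⟨C1, hC1, hT⟩ := hf.exists_taylor hM
  have hev : ∀ A b : ℝ, 0 < b → ∀ᶠ r in 𝓝[>] (0 : ℝ), A * r < b := fun A b hb =>
    ((tendsto_id.mono_left nhdsWithin_le_nhds).const_mul A).eventually_lt_const (by simpa using hb)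
  obtain ⟨r, ⟨⟨⟨r2, r3⟩, r4⟩, r5⟩, hr⟩ := (((((hev 1 ε hε).and (hev 1 η hη)).and
    (hev (R + 1) r1 hr1)).and (hev (C1 * (R + 1) ^ 2) (η * ‖M.grad f p‖ / 4) (by positivity))).and
    self_mem_nhdsWithin).exists
  replace hr : 0 < r := hr
  rw [one_mul] at r2 r3
  have hK : IsCompact {q | ‖M.x q - M.x p‖ ≤ (R + 1) * r ∧ η * r * ‖M.grad f p‖ / 4 ≤ |f q|} :=
    ((isClosed_le (M.continuous_x.sub continuous_const).norm continuous_const).inter
      (isClosed_le continuous_const hf.continuous.abs)).isCompact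
  have hev2 : ∀ᶠ j in (𝒰 : Filter ℕ), ∀ q ∈ {q | ‖M.x q - M.x p‖ ≤ (R + 1) * r ∧
      η * r * ‖M.grad f p‖ / 4 ≤ |f q|}, |t| + (R + 1) * r < |u j q| := by
    refine hK.induction_on
      (p := fun S => ∀ᶠ j in (𝒰 : Filter ℕ), ∀ q ∈ S, |t| + (R + 1) * r < |u j q|) (by simp)
      (fun S S' hS h => h.mono fun j hj q hq => hj q (hS hq))
      (fun S S' h h' => (h.and h').mono fun j hj q hq => hq.elim (hj.1 q) (hj.2 q)) fun q hq' => ?_
    obtain ⟨⟨q1, q2⟩, -⟩ := h1 q (hq'.1.trans_lt r4)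
    obtain ⟨N, hN, h⟩ := (hC m ι X M F h Λ 𝒰 u τ s hM hFs hq).2 q (fun hS => by
      have h2 := hq'.2
      rw [q2, (B.slice q q1).1 hS, abs_zero] at h2
      exact h2.not_gt (by positivity)) (|t| + (R + 1) * r)
    exact ⟨N, mem_nhdsWithin_of_mem_nhds hN, h⟩
  refine ⟨θ * r, C / r ^ 2, by positivity, hev2.mono fun j hj q q' h2 h3 => ?_⟩
  suffices H : M.Flat ε (u j) (up t (M.x p)) r by
    have := hW' _ (hq.adm j) _ r hr r2.le H q q' h2 h3
    exact ⟨by rw [le_div_iff₀ (by positivity), mul_comm]; exact this.1, this.2⟩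
  have hA : ∀ q, ‖M.gx (u j) q - up t (M.x p)‖ ≤ (R + 1) * r → ‖M.x q - M.x p‖ ≤ (R + 1) * r ∧
      |⟪M.grad f p, M.x q - M.x p⟫ + f p| ≤ η * r * ‖M.grad f p‖ / 2 := fun q hq => by
    have a1 := (Imm.norm_x_sub_le (u j) q _).trans hq
    have a2 := (Imm.abs_u_sub_le (u j) q _).trans hq
    rw [down_up] at a1
    rw [up_none] at a2
    have a3 : |f q| < η * r * ‖M.grad f p‖ / 4 := not_le.1 fun h =>
      (hj q ⟨a1, h⟩).not_ge (by linarith [abs_sub_abs_le_abs_sub (u j q) t])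
    have a4 := (hT p q).trans (mul_le_mul_of_nonneg_left
      (pow_le_pow_left₀ (norm_nonneg _) a1 2) hC1.le)
    rw [Imm.td_eq_inner, Real.norm_eq_abs] at a4
    have a5 := mul_le_mul_of_nonneg_right r5.le hr.le
    refine ⟨a1, abs_le.2 ⟨?_, ?_⟩⟩ <;> linarith [abs_le.1 a4, abs_lt.1 a3]
  intro q hq'
  have b1 := hA q (hq'.le.trans (by nlinarith))
  refine hF' _ (hq.adm j) q r hr r3.le (up 0 n) ((hup n).trans hn1) ?_ fun q' hq'' => ?_
  · rw [Imm.PbL, up_none, down_up, hup]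
    exact (h1 q (b1.1.trans_lt r4)).2
  have b2 := hA q' (by
    linarith [norm_sub_le_norm_sub_add_norm_sub (M.gx (u j) q') (M.gx (u j) q) (up t (M.x p))])
  rw [Imm.gx, Imm.gx, up_sub, inner_up, zero_mul, zero_add, hn, real_inner_smul_left, abs_mul,
    abs_of_pos (inv_pos.2 hg), inv_mul_le_iff₀ hg, ← sub_sub_sub_cancel_right _ _ (M.x p),
    inner_sub_right]
  refine abs_le.2 ⟨?_, ?_⟩ <;> linarith [abs_le.1 b1.2, abs_le.1 b2.2]

end W

end Crest.Agent.N228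

end
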